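import Crest.Agent.X212.Thk1.PL
import Crest.Agent.R096.Pb1_715
import Crest.Agent.R096.Gn1_296

/-!
# X212 / T layer / THICK (helper1), part 3: PL discs and half discs in three-space are
locally flat (cone on the link)
-/

set_option autoImplicit false

open Set Metric Topology Filter

namespace Crest.Agent.X212.Thk1

open Crest.Agent.R096 Crest.Agent.R096.Ce_537 Crest.Agent.R096.Cb_609 Crest.Agent.R096.Gn_296

section conic

variable {E F : Type*} [NormedAddCommGroup E] [NormedSpace ℝ E] [NormedAddCommGroup F]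
  [NormedSpace ℝ F]

theorem conic_pl {H : E → F} {S : Finset (E →L[ℝ] F)} (h : Str_696.Conic H S) (K : Set E) :
    PLOn H K := by
  classical
  refine ⟨h.cont.continuousOn, S.image fun A : E →L[ℝ] F => (A : E →ₗ[ℝ] F).toAffineMap, fun x _ => ?_⟩
  obtain ⟨A, hA, e⟩ := h.sel x
  exact ⟨_, Finset.mem_image_of_mem _ hA, e⟩

theorem exists_conic [FiniteDimensional ℝ E] {ψ : E → F} {r : ℝ} (hr : 0 < r)
    (h : PLOn ψ (ball 0 r)) : ∃ (ρ : ℝ) (S : Finset (E →L[ℝ] F)) (H : E → F), 0 < ρ ∧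
      Str_696.Conic H S ∧ ∀ v : E, ‖v‖ < ρ → ψ v = ψ 0 + H v := by
  have h1 : Str_696.LocPL ψ {0} := by
    rintro x rfl
    obtain ⟨h1, S, h2⟩ := h
    exact ⟨r, hr, S, h1, h2⟩
  obtain ⟨ρ, S, H, h2, h3, h4⟩ := h1.conic (mem_singleton 0)
  exact ⟨ρ, S, H, h2, h3, fun v hv => by simpa using h4 v hv⟩

theorem small {ρ : ℝ} (hρ : 0 < ρ) (v : E) : ∃ t : ℝ, 0 < t ∧ ‖t • v‖ < ρ := by
  refine ⟨ρ / (‖v‖ + 1), by positivity, ?_⟩
  rw [norm_smul, Real.norm_eq_abs, abs_of_pos (by positivity), div_mul_eq_mul_div,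
    div_lt_iff₀ (by positivity)]
  nlinarith [norm_nonneg v]

theorem conic_of_pl [FiniteDimensional ℝ E] {K : E → F} (h : PLOn K univ)
    (hh : ∀ (t : ℝ) (v : E), 0 ≤ t → K (t • v) = t • K v) : ∃ S, Str_696.Conic K S := by
  obtain ⟨ρ, S, H, h1, h2, h3⟩ := exists_conic one_pos (h.mono (subset_univ _))
  have h0 : K 0 = 0 := by simpa using hh 0 0 le_rfl
  have e : K = H := by
    funext v
    obtain ⟨t, ht, htv⟩ := small h1 v
    have h4 := h3 _ htv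
    rw [h0, zero_add, hh t v ht.le, h2.homog t v ht.le] at h4
    exact smul_right_injective F ht.ne' h4
  exact ⟨S, e ▸ h2⟩

end conic

/-- **radial rescaling** preserving the sign of a form -/
theorem rescale {m n : ℕ} {H : (Fin m → ℝ) → Fin n → ℝ} (hH : PLOn H univ)
    (hh : ∀ (t : ℝ) v, 0 ≤ t → H (t • v) = t • H v) (h0 : ∀ v, v ≠ 0 → H v ≠ 0)
    (ℓ : (Fin m → ℝ) →L[ℝ] ℝ) :
    ∃ f g : (Fin m → ℝ) → Fin m → ℝ, PLOn f univ ∧ (∀ v, g (f v) = v) ∧ (∀ v, f (g v) = v) ∧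
      (∀ v, ‖H (f v)‖ = ‖v‖) ∧ (∀ (t : ℝ) v, 0 ≤ t → f (t • v) = t • f v) ∧
      (∀ v, 0 ≤ ℓ (f v) ↔ 0 ≤ ℓ v) ∧ ∀ v, ℓ (f v) ≤ 0 ↔ ℓ v ≤ 0 := by
  classical
  obtain ⟨S, hS⟩ := conic_of_pl (K := fun v => (‖H v‖, ‖v‖))
    (pl_pair (pl_norm hH) (pl_norm' _)) (fun t v ht => by
      simp only [hh t v ht, norm_smul, Real.norm_eq_abs, abs_of_nonneg ht, Prod.smul_mk,
        smul_eq_mul])
  obtain ⟨ι, _, F, hl, -, hv, hsign⟩ := Fan_696.exists_Fan hS {ℓ}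
  have hp : ∀ c ∈ F.T, ∃ L : (Fin m → ℝ) →L[ℝ] ℝ, ∀ x ∈ F.cone c, ‖H x‖ = L x := fun c hc => by
    obtain ⟨A, -, hA⟩ := hl c hc
    exact ⟨(ContinuousLinearMap.fst ℝ ℝ ℝ).comp A, fun x ⟨a, ha⟩ => congrArg Prod.fst (hA a x ha)⟩
  have hq : ∀ c ∈ F.T, ∃ L : (Fin m → ℝ) →L[ℝ] ℝ, ∀ x ∈ F.cone c, ‖x‖ = L x := fun c hc => by
    obtain ⟨A, -, hA⟩ := hl c hc
    exact ⟨(ContinuousLinearMap.snd ℝ ℝ ℝ).comp A, fun x ⟨a, ha⟩ => congrArg Prod.snd (hA a x ha)⟩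
  have p0 : ∀ i, 0 < ‖H (F.v i)‖ := fun i => norm_pos_iff.2 (h0 _ (hv i))
  have q0 : ∀ i, 0 < ‖F.v i‖ := fun i => norm_pos_iff.2 (hv i)
  have key : ∀ r s : ι → ℝ, (∀ i, 0 ≤ r i) → (∀ i, r i * s i = 1) →
      ∀ x, F.map (fun i => s i • F.v i) (F.map (fun i => r i • F.v i) x) = x := by
    intro r s hr hrs x
    have h := F.co_rep x
    have e1 : F.map (fun i => r i • F.v i) x = ∑ i, F.co x i • (r i • F.v i) := rfl
    rw [e1, F.map_of_rep _ (F.cell_mem x) (Pb_715.rep_scale F hr h)]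
    conv_rhs => rw [← h.sum]
    refine Finset.sum_congr rfl fun i _ => ?_
    rw [smul_smul, mul_assoc, hrs, mul_one]
  have sgn : ∀ r : ι → ℝ, (∀ i, 0 ≤ r i) → ∀ (ε : ℝ) x, 0 ≤ ε * ℓ x → (ε = 1 ∨ ε = -1) →
      0 ≤ ε * ℓ (F.map (fun i => r i • F.v i) x) := by
    intro r hr ε x hx hε
    have h := F.co_rep x
    have e1 : ε * ℓ (F.map (fun i => r i • F.v i) x) =
        ∑ i, r i * (F.co x i * (ε * ℓ (F.v i))) := by
      rw [Fp_812.Fan.map, map_sum, Finset.mul_sum]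
      refine Finset.sum_congr rfl fun i _ => ?_
      simp only [map_smul, smul_eq_mul]; ring
    have e2 : ε * ℓ x = ∑ i, F.co x i * (ε * ℓ (F.v i)) := by
      conv_lhs => rw [← h.sum]
      rw [map_sum, Finset.mul_sum]
      refine Finset.sum_congr rfl fun i _ => ?_
      simp only [map_smul, smul_eq_mul]; ring
    have hs : (∀ i ∈ F.cell x, 0 ≤ ε * ℓ (F.v i)) ∨ ∀ i ∈ F.cell x, ε * ℓ (F.v i) ≤ 0 := by
      rcases hsign _ (F.cell_mem x) ℓ (Finset.mem_singleton_self _) with h1 | h1 <;>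
        rcases hε with rfl | rfl
      · exact Or.inl fun i hi => by linarith [h1 i hi]
      · exact Or.inr fun i hi => by linarith [h1 i hi]
      · exact Or.inr fun i hi => by linarith [h1 i hi]
      · exact Or.inl fun i hi => by linarith [h1 i hi]
    rw [e1]
    rcases hs with h1 | h1
    · refine Finset.sum_nonneg fun i _ => mul_nonneg (hr i) ?_
      by_cases hi : i ∈ F.cell x
      · exact mul_nonneg (h.nonneg i) (h1 i hi)
      · rw [h.off i hi, zero_mul]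
    · have h2 : ∀ i ∈ Finset.univ, F.co x i * (ε * ℓ (F.v i)) ≤ 0 := fun i _ => by
        by_cases hi : i ∈ F.cell x
        · exact mul_nonpos_of_nonneg_of_nonpos (h.nonneg i) (h1 i hi)
        · rw [h.off i hi, zero_mul]
      have h3 := (Finset.sum_eq_zero_iff_of_nonpos h2).1
        (le_antisymm (Finset.sum_nonpos h2) (e2 ▸ hx))
      exact Finset.sum_nonneg fun i hi => by rw [h3 i hi, mul_zero]
  have r0 : ∀ i, 0 ≤ ‖F.v i‖ / ‖H (F.v i)‖ := fun i => by positivity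
  have s0 : ∀ i, 0 ≤ ‖H (F.v i)‖ / ‖F.v i‖ := fun i => by positivity
  have rs : ∀ i, ‖F.v i‖ / ‖H (F.v i)‖ * (‖H (F.v i)‖ / ‖F.v i‖) = 1 := fun i => by
    have := (p0 i).ne'; have := (q0 i).ne'; field_simp
  have gf := key _ _ r0 rs
  refine ⟨F.map fun i => (‖F.v i‖ / ‖H (F.v i)‖) • F.v i,
    F.map fun i => (‖H (F.v i)‖ / ‖F.v i‖) • F.v i, Pb_715.plOn_map F _ _, gf,
    key _ _ s0 fun i => by rw [mul_comm]; exact rs i, fun x => ?_,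
    fun t v ht => F.map_smul _ ht v, fun v => ⟨fun h => ?_, fun h => ?_⟩,
    fun v => ⟨fun h => ?_, fun h => ?_⟩⟩
  · have h := F.co_rep x
    have e1 : F.map (fun i => (‖F.v i‖ / ‖H (F.v i)‖) • F.v i) x =
        ∑ i, F.co x i • ((‖F.v i‖ / ‖H (F.v i)‖) • F.v i) := rfl
    rw [e1, Pb_715.val_of_rep F (p := fun x => ‖H x‖) hp (F.cell_mem x)
      (Pb_715.rep_scale F r0 h), Pb_715.val_of_rep F (p := fun x => ‖x‖) hq (F.cell_mem x) h]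
    refine Finset.sum_congr rfl fun i _ => ?_
    have := (p0 i).ne'
    field_simp
  · have := sgn _ s0 1 _ (by rwa [one_mul]) (Or.inl rfl)
    rwa [gf, one_mul] at this
  · simpa using sgn _ r0 1 v (by rwa [one_mul]) (Or.inl rfl)
  · have := sgn _ s0 (-1) _ (by linarith) (Or.inr rfl)
    rw [gf] at this; linarith
  · have := sgn _ r0 (-1) v (by linarith) (Or.inr rfl)
    linarith

theorem cone_mem {k : ℕ} {η : (Fin k → ℝ) → Fin k → ℝ} {T T₀ : Set (Fin k → ℝ)}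
    (hT : ∀ t : ℝ, 0 < t → ∀ v ∈ T, t • v ∈ T) (hT₀ : ∀ t : ℝ, 0 < t → ∀ v ∈ T₀, t • v ∈ T₀)
    (h0 : (0 : Fin k → ℝ) ∈ T) (h0' : (0 : Fin k → ℝ) ∈ T₀)
    (h : ∀ y ∈ sph k, η y ∈ T ↔ y ∈ T₀) (y : Fin k → ℝ) : cone η y ∈ T ↔ y ∈ T₀ := by
  by_cases hy : y = 0
  · subst hy; rw [cone_zero]; exact iff_of_true h0 h0'
  · have hn : 0 < ‖y‖ := norm_pos_iff.2 hy
    have h1 := h _ (smul_mem_sph hy)
    constructor
    · intro h2
      have h3 := hT _ (inv_pos.2 hn) _ h2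
      rw [cone, smul_smul, inv_mul_cancel₀ hn.ne', one_smul, h1] at h3
      have h4 := hT₀ _ hn _ h3
      rwa [smul_smul, mul_inv_cancel₀ hn.ne', one_smul] at h4
    · intro h2
      exact hT _ hn _ (h1.2 (hT₀ _ (inv_pos.2 hn) _ h2))

/-- exchange of the coordinates `0` and `2` -/
def sw (y : Fin 3 → ℝ) : Fin 3 → ℝ := fun j => y (Equiv.swap 0 2 j)

theorem sw_sw (y : Fin 3 → ℝ) : sw (sw y) = y := by funext j; simp [sw]

theorem sw_zero (y : Fin 3 → ℝ) : sw y 0 = y 2 := by simp [sw]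

theorem sw_two (y : Fin 3 → ℝ) : sw y 2 = y 0 := by simp [sw]

theorem norm_sw (y : Fin 3 → ℝ) : ‖sw y‖ = ‖y‖ := by
  have h : ∀ y, ‖sw y‖ ≤ ‖y‖ := fun y =>
    (pi_norm_le_iff_of_nonneg (norm_nonneg _)).2 fun j => norm_le_pi_norm y _
  exact le_antisymm (h y) (by simpa only [sw_sw] using h (sw y))

theorem pl_sw (K : Set (Fin 3 → ℝ)) : PLOn sw K := pl_pi fun _ => pl_coord (plOn_id K) _

/-- the exchange as a PL equivalence -/
def swE {A B : Set (Fin 3 → ℝ)} (h : ∀ y, sw y ∈ B ↔ y ∈ A) : PLEquiv A B :=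
  ⟨sw, sw, pl_sw _, pl_sw _, fun y hy => (h y).2 hy, fun y hy => by rw [← h, sw_sw]; exact hy,
    fun y _ => sw_sw y, fun y _ => sw_sw y⟩

section mem

variable {E F : Type*} [NormedAddCommGroup E] [NormedSpace ℝ E] [NormedAddCommGroup F]
  [NormedSpace ℝ F]

theorem mem_image_iff {A : Set E} {B : Set F} (e : PLEquiv A B) {A' : Set E} {B' : Set F}
    (hA : A' ⊆ A) (h : e.f '' A' = B') {x : E} (hx : x ∈ A) : e.f x ∈ B' ↔ x ∈ A' := by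
  rw [← h]
  exact e.injOn.mem_image_iff hA hx

/-- change of the two sets along equalities -/
def cast {A A' : Set E} {B B' : Set F} (e : PLEquiv A B) (hA : A = A') (hB : B = B') :
    PLEquiv A' B' :=
  e.restr hA.ge hB.ge (fun _ hx => hB.le (e.mf (hA.ge hx))) (fun _ hy => hA.le (e.mg (hB.ge hy)))

end mem

/-- a circle on the sphere is an equator -/
theorem theta_int {D Γ : Set (Fin 3 → ℝ)} (h : IsBall 2 D Γ) (hΓ : Γ ⊆ sph 3) :
    ∃ θ : PLEquiv (sph 3) (sph 3), ∀ y ∈ sph 3, (θ.f y ∈ Γ ↔ y 2 = 0) := by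
  obtain ⟨A, B, hp, hAB⟩ := sphere_sides (isBall_cube 3) (circle_of_disc h) hΓ
  obtain ⟨th, h1, h2⟩ := exists_theta hp
  have hs : ∀ y, sw y ∈ sph 3 ↔ y ∈ sph 3 := fun y => by
    simp only [sph, mem_sphere_zero_iff_norm, norm_sw]
  refine ⟨(swE hs).trans (cast th.symm rfl hAB), fun y hy => ?_⟩
  have h3 : sw y ∈ sph 3 := (hs y).2 hy
  show th.g (sw y) ∈ Γ ↔ _
  rw [← hp.inter, mem_inter_iff, ← mem_image_iff th subset_union_left h1 (th.mg h3),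
    ← mem_image_iff th subset_union_right h2 (th.mg h3), th.ri _ h3, ← sw_zero y]
  exact ⟨fun h => le_antisymm h.2.2 h.1.2, fun h => ⟨⟨h3, h.ge⟩, h3, h.le⟩⟩

/-- two proper arcs in the upper hemisphere -/
theorem theta_arcs {α dα β dβ : Set (Fin 3 → ℝ)} (hα : IsBall 1 α dα) (hβ : IsBall 1 β dβ)
    (h1 : α ⊆ Hp 2) (h2 : β ⊆ Hp 2) (h3 : α ∩ He 2 = dα) (h4 : β ∩ He 2 = dβ) :
    ∃ θ : PLEquiv (sph 3) (sph 3), θ.f '' α = β ∧ θ.f '' Hp 2 = Hp 2 ∧ θ.f '' He 2 = He 2 := by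
  obtain ⟨p, q, -, rfl⟩ := exists_ends hα
  obtain ⟨p', q', -, rfl⟩ := exists_ends hβ
  have hm := ballPair_cube 2
  obtain ⟨K₁, K₂, S₁, S₂, -, a1, a2, a3, a4, a5⟩ := cut_disc hm.ball₁ hα h1 h3
  obtain ⟨L₁, L₂, T₁, T₂, -, b1, b2, b3, b4, b5⟩ := cut_disc hm.ball₁ hβ h2 h4
  obtain ⟨e, he, -⟩ := hα.exists_equiv hβ
  obtain ⟨e₁, c1, c2, c3⟩ := a2.extend b2 e he
  obtain ⟨e₂, d1, d2, d3⟩ := a3.extend b3 e he
  have hf : EqOn e₁.f e₂.f (K₁ ∩ K₂) := by rw [a5]; exact c1.trans d1.symm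
  have hg : EqOn e₁.g e₂.g (L₁ ∩ L₂) := by rw [b5]; exact c2.trans d2.symm
  set u := glue e₁ e₂ a2.ball.isClosed a3.ball.isClosed b2.ball.isClosed b3.ball.isClosed hf hg
  have u1 : EqOn u.f e₁.f K₁ := glue_f₁ _ _ _ _ _ _ _ _
  have u2 : EqOn u.f e₂.f K₂ := glue_f₂ _ _ _ _ _ _ _ _
  have uα : u.f '' α = β := by
    rw [(u1.mono a2.subset₁).image_eq, c1.image_eq, e.image_eq]
  have uE : u.f '' He 2 = He 2 := by
    conv_lhs => rw [← a1]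
    rw [image_union, (u1.mono a2.subset₂).image_eq, (u2.mono a3.subset₂).image_eq, c3, d3, b1]
  let U : PLEquiv (Hp 2) (Hp 2) := cast u a4 b4
  have hE : He 2 ⊆ Hp 2 := hm.ball₁.subset
  obtain ⟨w, w1, w2⟩ := hm.ball₂.extend hm.ball₂ (cast (U.restrImage hE) rfl uE)
  have hf' : EqOn U.f w.f (Hp 2 ∩ Hm 2) := by rw [hm.inter]; exact w1.symm
  have hg' : EqOn U.g w.g (Hp 2 ∩ Hm 2) := by rw [hm.inter]; exact w2.symm
  set z := glue U w hm.ball₁.isClosed hm.ball₂.isClosed hm.ball₁.isClosed hm.ball₂.isClosed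
    hf' hg'
  have z1 : EqOn z.f U.f (Hp 2) := glue_f₁ _ _ _ _ _ _ _ _
  refine ⟨cast z (Hp_union_Hm 2) (Hp_union_Hm 2), ?_, ?_, ?_⟩
  · exact (z1.mono h1).image_eq.trans uα
  · exact z1.image_eq.trans U.image_eq
  · exact (z1.mono hE).image_eq.trans uE

/-- the standard plane `y 2 = 0` -/
def J (v : Fin 2 → ℝ) : Fin 3 → ℝ := ![v 0, v 1, 0]

theorem pl_J (K : Set (Fin 2 → ℝ)) : PLOn J K := pl_pi fun i => by
  fin_cases i
  · exact pl_coord (plOn_id K) 0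
  · exact pl_coord (plOn_id K) 1
  · exact plOn_const 0 K

theorem J_inj : Function.Injective J := fun v w h => by
  funext i
  fin_cases i
  · exact congrFun h 0
  · exact congrFun h 1

theorem norm_J (v : Fin 2 → ℝ) : ‖J v‖ = ‖v‖ := by
  apply le_antisymm
  · refine (pi_norm_le_iff_of_nonneg (norm_nonneg _)).2 fun i => ?_
    fin_cases i
    · exact norm_le_pi_norm v 0
    · exact norm_le_pi_norm v 1
    · simp [J]
  · refine (pi_norm_le_iff_of_nonneg (norm_nonneg _)).2 fun i => ?_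
    fin_cases i
    · exact norm_le_pi_norm (J v) 0
    · exact norm_le_pi_norm (J v) 1

theorem J_surj {y : Fin 3 → ℝ} (hy : y 2 = 0) : J ![y 0, y 1] = y := by
  funext i
  fin_cases i
  · rfl
  · rfl
  · exact hy.symm

/-- **local flatness**.  `ψ` parametrises a surface germ (`b` false) or a half surface germ
standing on the wall `y 0 = 0` of the half space `0 ≤ y 0` (`b` true). -/
theorem model (b : Prop) {ψ : (Fin 2 → ℝ) → Fin 3 → ℝ} {r : ℝ} (hr : 0 < r)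
    (hψ : PLOn ψ (ball 0 r)) (h0 : ∀ v, ‖v‖ < r → ψ v = ψ 0 → v = 0)
    (hi : InjOn ψ {v | ‖v‖ < r ∧ (b → 0 ≤ v 0)})
    (hb : b → ∀ v, ‖v‖ < r → 0 ≤ v 0 → 0 ≤ ψ v 0 ∧ (ψ v 0 = 0 ↔ v 0 = 0))
    {S : Set (Fin 3 → ℝ)} (hS1 : ∀ v, ‖v‖ < r → (b → 0 ≤ v 0) → ψ v ∈ S)
    (hS2 : ∀ ρ > 0, ∀ᶠ y in 𝓝[S] (ψ 0), ∃ v, ‖v‖ < ρ ∧ (b → 0 ≤ v 0) ∧ ψ v = y) :
    ∃ Φ : PLEquiv (cube 3) (cube 3), Φ.f 0 = 0 ∧
      (b → ∀ y, (0 ≤ Φ.f y 0 ↔ 0 ≤ y 0) ∧ (Φ.f y 0 = 0 ↔ y 0 = 0)) ∧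
      ∃ δ₀ > 0, ∀ δ : ℝ, 0 < δ → δ ≤ δ₀ → ∀ y ∈ cube 3,
        (ψ 0 + δ • Φ.f y ∈ S ↔ (y 2 = 0 ∧ (b → 0 ≤ y 0))) := by
  obtain ⟨ρ₀, L, H, hρ₀, hH, hψH⟩ := exists_conic hr hψ
  set ρ := min ρ₀ r
  have hρ : 0 < ρ := lt_min hρ₀ hr
  have ρ1 : ∀ {v : Fin 2 → ℝ}, ‖v‖ < ρ → ψ v = ψ 0 + H v := fun h =>
    hψH _ (h.trans_le (min_le_left _ _))
  have ρ2 : ∀ {v : Fin 2 → ℝ}, ‖v‖ < ρ → ‖v‖ < r := fun h => h.trans_le (min_le_right _ _)
  have H0 : ∀ v, v ≠ 0 → H v ≠ 0 := fun v hv e => by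
    obtain ⟨t, ht, htv⟩ := small hρ v
    have := h0 _ (ρ2 htv) (by rw [ρ1 htv, hH.homog t v ht.le, e, smul_zero, add_zero])
    exact hv ((smul_eq_zero.1 this).resolve_left ht.ne')
  obtain ⟨f, g, fpl, gf, fg, nf, fh, s1, s2⟩ := rescale (conic_pl hH univ) hH.homog H0
    (ContinuousLinearMap.proj (R := ℝ) (φ := fun _ : Fin 2 => ℝ) 0)
  simp only [ContinuousLinearMap.proj_apply] at s1 s2
  have s3 : ∀ v, f v 0 = 0 ↔ v 0 = 0 := fun v => by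
    rw [le_antisymm_iff, le_antisymm_iff, s1, s2]
  have Hi : InjOn H {v | b → 0 ≤ v 0} := fun v hv w hw e => by
    obtain ⟨t, ht, htv⟩ := small hρ (v, w)
    have h1 : ‖t • v‖ < ρ := lt_of_le_of_lt (norm_fst_le (t • (v, w))) htv
    have h2 : ‖t • w‖ < ρ := lt_of_le_of_lt (norm_snd_le (t • (v, w))) htv
    have := hi ⟨ρ2 h1, fun hb => mul_nonneg ht.le (hv hb)⟩ ⟨ρ2 h2, fun hb => mul_nonneg ht.le (hw hb)⟩
      (by rw [ρ1 h1, ρ1 h2, hH.homog t v ht.le, hH.homog t w ht.le, e])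
    exact smul_right_injective _ ht.ne' this
  set G : (Fin 2 → ℝ) → Fin 3 → ℝ := fun v => H (f v) with hG
  have Gpl : ∀ K, PLOn G K := fun K =>
    ((conic_pl hH univ).comp fpl (mapsTo_univ _ _)).mono (subset_univ _)
  have Gi : InjOn G {v | b → 0 ≤ v 0} := fun v hv w hw e => by
    have := Hi (fun hb => (s1 v).2 (hv hb)) (fun hb => (s1 w).2 (hw hb)) e
    rw [← gf v, this, gf]
  set T := G '' {v | b → 0 ≤ v 0} with hT
  have Tc : ∀ t : ℝ, 0 < t → ∀ y ∈ T, t • y ∈ T := by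
    rintro t ht _ ⟨v, hv, rfl⟩
    exact ⟨t • v, fun hb => mul_nonneg ht.le (hv hb), by
      simp only [hG, fh t v ht.le, hH.homog t _ ht.le]⟩
  have f0 : f 0 = 0 := by simpa using fh 0 0 le_rfl
  have T0 : (0 : Fin 3 → ℝ) ∈ T := ⟨0, fun _ => le_rfl, by simp only [hG, f0, hH.zero]⟩
  have Gs : ∀ v, G v ∈ sph 3 ↔ v ∈ sph 2 := fun v => by
    simp only [sph, mem_sphere_zero_iff_norm, hG, nf]
  obtain ⟨θ, θ1, θ2⟩ : ∃ θ : PLEquiv (sph 3) (sph 3),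
      (∀ y ∈ sph 3, θ.f y ∈ T ↔ (y 2 = 0 ∧ (b → 0 ≤ y 0))) ∧
      (b → ∀ y ∈ sph 3, (0 ≤ θ.f y 0 ↔ 0 ≤ y 0) ∧ (θ.f y 0 = 0 ↔ y 0 = 0)) := by
    by_cases hb' : b
    · have Hb : ∀ v, 0 ≤ v 0 → 0 ≤ H v 0 ∧ (H v 0 = 0 ↔ v 0 = 0) := fun v hv => by
        obtain ⟨t, ht, htv⟩ := small hρ v
        have h1 := hb hb' _ (ρ2 htv) (mul_nonneg ht.le hv)
        have h2 := ((hb hb' 0 (by simpa using hr) le_rfl).2).2 rfl
        rw [ρ1 htv, hH.homog t v ht.le] at h1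
        simp only [Pi.add_apply, Pi.smul_apply, smul_eq_mul, h2, zero_add, mul_eq_zero,
          ht.ne', false_or] at h1
        exact ⟨(mul_nonneg_iff_of_pos_left ht).1 h1.1, h1.2⟩
      have arc : ∀ G : (Fin 2 → ℝ) → Fin 3 → ℝ, (∀ v, G v ∈ sph 3 ↔ v ∈ sph 2) →
          (∀ v, 0 ≤ v 0 → 0 ≤ G v 0 ∧ (G v 0 = 0 ↔ v 0 = 0)) →
          G '' Hp 1 ⊆ Hp 2 ∧ G '' Hp 1 ∩ He 2 = G '' He 1 := fun G h1 h2 => by
        constructor
        · rintro _ ⟨v, hv, rfl⟩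
          exact ⟨(h1 v).2 hv.1, (h2 v hv.2).1⟩
        · ext y
          constructor
          · rintro ⟨⟨v, hv, rfl⟩, h⟩
            exact ⟨v, ⟨hv.1, (h2 v hv.2).2.1 h.2⟩, rfl⟩
          · rintro ⟨v, hv, rfl⟩
            exact ⟨⟨v, ⟨hv.1, hv.2.ge⟩, rfl⟩, (h1 v).2 hv.1, (h2 v hv.2.ge).2.2 hv.2⟩
      obtain ⟨a1, a2⟩ := arc J (fun v => by simp only [sph, mem_sphere_zero_iff_norm, norm_J])
        (fun v hv => ⟨hv, Iff.rfl⟩)
      obtain ⟨b1, b2⟩ := arc G Gs (fun v hv =>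
        ⟨(Hb _ ((s1 v).2 hv)).1, (Hb _ ((s1 v).2 hv)).2.trans (s3 v)⟩)
      obtain ⟨θ, c1, c2, c3⟩ := theta_arcs
        ((ballPair_cube 1).ball₁.image_injOn (pl_J _) J_inj.injOn)
        ((ballPair_cube 1).ball₁.image_injOn (Gpl _) (Gi.mono fun v hv _ => hv.2)) a1 b1 a2 b2
      refine ⟨θ, fun y hy => ?_, fun _ y hy => ⟨?_, ?_⟩⟩
      · have h1 := mem_image_iff θ (a1.trans fun _ h => h.1) c1 hy
        constructor
        · rintro ⟨v, hv, e⟩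
          obtain ⟨w, hw, rfl⟩ := h1.1 ⟨v, ⟨(Gs v).1 (e ▸ θ.mf hy), hv hb'⟩, e⟩
          exact ⟨rfl, fun _ => hw.2⟩
        · rintro ⟨h2, h3⟩
          obtain ⟨v, hv, e⟩ := h1.2 ⟨![y 0, y 1], ⟨by
            have := norm_J ![y 0, y 1]
            rw [J_surj h2] at this
            rw [sph, mem_sphere_zero_iff_norm, ← this]
            exact mem_sphere_zero_iff_norm.1 hy, h3 hb'⟩, J_surj h2⟩
          exact ⟨v, fun _ => hv.2, e⟩
      · have h1 := mem_image_iff θ (fun _ h => h.1) c2 hy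
        exact ⟨fun h => (h1.1 ⟨θ.mf hy, h⟩).2, fun h => (h1.2 ⟨hy, h⟩).2⟩
      · have h1 := mem_image_iff θ (fun _ h => h.1) c3 hy
        exact ⟨fun h => (h1.1 ⟨θ.mf hy, h⟩).2, fun h => (h1.2 ⟨hy, h⟩).2⟩
    · obtain ⟨θ, h1⟩ := theta_int ((isBall_cube 2).image_injOn (Gpl _)
        (fun v _ w _ e => Gi (fun h => absurd h hb') (fun h => absurd h hb') e)) (by rintro _ ⟨v, hv, rfl⟩; exact (Gs v).2 hv)
      refine ⟨θ, fun y hy => ?_, fun h => absurd h hb'⟩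
      rw [and_iff_left (fun h => absurd h hb'), ← h1 y hy]
      constructor
      · rintro ⟨v, -, e⟩
        exact ⟨v, (Gs v).1 (e ▸ θ.mf hy), e⟩
      · rintro ⟨v, -, e⟩
        exact ⟨v, fun h => absurd h hb', e⟩
  refine ⟨coneEquiv θ, cone_zero _, fun hb' y => ⟨?_, ?_⟩, ?_⟩
  · exact cone_mem (T := {y | 0 ≤ y 0}) (T₀ := {y | 0 ≤ y 0})
      (fun t ht v hv => mul_nonneg ht.le hv) (fun t ht v hv => mul_nonneg ht.le hv)
      (le_refl (0:ℝ)) (le_refl (0:ℝ)) (fun y hy => (θ2 hb' y hy).1) y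
  · exact cone_mem (T := {y | y 0 = 0}) (T₀ := {y | y 0 = 0})
      (fun t _ v hv => mul_eq_zero_of_right t hv) (fun t _ v hv => mul_eq_zero_of_right t hv)
      rfl rfl (fun y hy => (θ2 hb' y hy).2) y
  · have e1 : ∀ᶠ w in 𝓝 (0 : Fin 3 → ℝ), (ψ 0 + w ∈ S ↔ w ∈ T) := by
      have h1 : ∀ᶠ w in 𝓝 (0 : Fin 3 → ℝ), ψ 0 + w ∈ S →
          ∃ v, ‖v‖ < ρ ∧ (b → 0 ≤ v 0) ∧ ψ v = ψ 0 + w := by
        have h2 : Tendsto (fun w => ψ 0 + w) (𝓝 (0 : Fin 3 → ℝ)) (𝓝 (ψ 0)) := by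
          simpa using (continuous_const_add (ψ 0)).tendsto 0
        exact h2.eventually (eventually_nhdsWithin_iff.1 (hS2 ρ hρ))
      have h2 : ∀ᶠ v in 𝓝 (0 : Fin 2 → ℝ), ‖f v‖ < ρ := by
        have h3 := (continuousOn_univ.1 fpl.1).norm.tendsto 0
        rw [f0, norm_zero] at h3
        exact h3.eventually (gt_mem_nhds hρ)
      obtain ⟨η, hη, h3⟩ := Metric.eventually_nhds_iff.1 h2
      filter_upwards [h1, ball_mem_nhds 0 hη] with w hw hwη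
      constructor
      · intro h
        obtain ⟨v, h4, h5, h6⟩ := hw h
        rw [ρ1 h4, add_right_inj] at h6
        exact ⟨g v, fun hb' => (s1 _).1 (by rw [fg]; exact h5 hb'), by simp only [hG, fg, h6]⟩
      · rintro ⟨v, hv, rfl⟩
        have h4 : ‖f v‖ < ρ := h3 (by
          rw [dist_zero_right, ← nf v]; exact mem_ball_zero_iff.1 hwη)
        have h5 := hS1 _ (ρ2 h4) fun hb' => (s1 v).2 (hv hb')
        rwa [ρ1 h4] at h5
    obtain ⟨η, hη, h1⟩ := Metric.eventually_nhds_iff.1 e1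
    refine ⟨η / 2, half_pos hη, fun δ hδ hδ' y hy => ?_⟩
    have h2 : ‖(coneEquiv θ).f y‖ ≤ 1 := mem_closedBall_zero_iff.1 ((coneEquiv θ).mf hy)
    rw [h1 (by
      rw [dist_zero_right, norm_smul, Real.norm_eq_abs, abs_of_pos hδ]; nlinarith)]
    have h3 := cone_mem (T₀ := {y | y 2 = 0 ∧ (b → 0 ≤ y 0)}) Tc
      (fun t ht v hv => ⟨mul_eq_zero_of_right t hv.1, fun h => mul_nonneg ht.le (hv.2 h)⟩)
      T0 ⟨rfl, fun _ => le_rfl⟩ θ1 y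
    refine Iff.trans ⟨fun h => ?_, Tc δ hδ _⟩ h3
    have h4 := Tc _ (inv_pos.2 hδ) _ h
    rwa [smul_smul, inv_mul_cancel₀ hδ.ne', one_smul] at h4

end Crest.Agent.X212.Thk1
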