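import Crest.Agent.X212.Thk1.Side
import Crest.Agent.X212.Thk1.Flat
import Crest.Agent.X212.Tw9.Ch

/-!
# X212 / T layer / THICK (helper1), part 4: `FlatStmt`, `ThickE`, `ThickStmt`
-/

set_option autoImplicit false

open Set Metric Topology Filter

namespace Crest.Agent.X212.Thk1

open Crest.Agent.R096 Crest.Agent.R096.Ce_537 Crest.Agent.R096.Cb_609 Crest.Agent.R096.Gn_296
open Crest.Agent.X212.Prd34 (V up fl side FlatAt FlatStmt ThickStmt)
open Crest.Agent.X212.Dsc4 (ROpen Ch MfE ThickE)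

section param

variable {E : Type*} [NormedAddCommGroup E] [NormedSpace ℝ E]

theorem mem_sph2 {v : Fin 2 → ℝ} (hv : v ∈ cube 2) : v ∈ sph 2 ↔ |v 0| = 1 ∨ |v 1| = 1 := by
  have h1 : ‖v‖ ≤ 1 := mem_closedBall_zero_iff.1 hv
  rw [sph, mem_sphere_zero_iff_norm]
  constructor
  · intro h
    obtain ⟨i, hi⟩ := exists_coord (x := v) (by rintro rfl; simp at h)
    rw [h] at hi
    fin_cases i
    · exact Or.inl hi.symm
    · exact Or.inr hi.symm
  · rintro (h | h)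
    · exact le_antisymm h1 (h ▸ norm_le_pi_norm v 0)
    · exact le_antisymm h1 (h ▸ norm_le_pi_norm v 1)

/-- a boundary point of a disc is the middle of a side -/
theorem move {D Γ : Set E} (h : IsBall 2 D Γ) {x : E} (hx : x ∈ Γ) :
    ∃ φ : PLEquiv (cube 2) D, φ.f '' sph 2 = Γ ∧ φ.f ![-1, 0] = x := by
  have hp : (![-1, 0] : Fin 2 → ℝ) ∈ sph 2 := (mem_sph2 (mem_closedBall_zero_iff.2
    ((pi_norm_le_iff_of_nonneg zero_le_one).2 fun i => by fin_cases i <;> simp))).2 (by simp)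
  have hq : (![1, 0] : Fin 2 → ℝ) ∈ sph 2 := (mem_sph2 (mem_closedBall_zero_iff.2
    ((pi_norm_le_iff_of_nonneg zero_le_one).2 fun i => by fin_cases i <;> simp))).2 (by simp)
  have hpq : (![-1, 0] : Fin 2 → ℝ) ≠ ![1, 0] := fun e => by
    have := congrFun e 0
    norm_num at this
  obtain ⟨y, hy, hxy⟩ : ∃ y ∈ Γ, x ≠ y := by
    obtain ⟨φ, rfl⟩ := h
    by_contra hc
    push Not at hc
    exact hpq (φ.injOn (sph_subset_cube hp) (sph_subset_cube hq)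
      ((hc _ ⟨_, hp, rfl⟩).symm.trans (hc _ ⟨_, hq, rfl⟩)))
  obtain ⟨A, B, h1, h2⟩ := two_marks h hx hy hxy
  obtain ⟨A₀, B₀, h3, h4⟩ := two_marks (isBall_cube 2) hp hq hpq
  let e₀ : PLEquiv ({![-1, 0]} : Set (Fin 2 → ℝ)) ({x} : Set E) :=
    ⟨fun _ => x, fun _ => ![-1, 0], plOn_const _ _, plOn_const _ _, fun _ _ => rfl,
      fun _ _ => rfl, fun _ h => h.symm, fun _ h => h.symm⟩
  obtain ⟨e, e1, -, e2⟩ := (arc_pair h3.ball₁).extend (arc_pair h1.ball₁) e₀ (image_empty _)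
  have e3 : e.f ![-1, 0] = x := e1 rfl
  rw [image_singleton, singleton_eq_singleton_iff] at e2
  obtain ⟨φ, f1, -, f2⟩ := h3.extend h1 e (by rw [image_pair, e3, e2])
  refine ⟨φ, ?_, (f1 (h3.ball₁.subset (by simp))).trans e3⟩
  rw [← h4, image_union, f1.image_eq, e.image_eq, f2, h2]

/-- local parametrisation of a disc by a plane or a half plane -/
theorem param {D Γ : Set E} (h : IsBall 2 D Γ) {x : E} (hx : x ∈ D) :
    ∃ (π : (Fin 2 → ℝ) → E) (r : ℝ), 0 < r ∧ π 0 = x ∧ PLOn π (ball 0 r) ∧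
      MapsTo π (ball 0 r) D ∧ (∀ v, ‖v‖ < r → π v = x → v = 0) ∧
      InjOn π {v | ‖v‖ < r ∧ (x ∈ Γ → 0 ≤ v 0)} ∧
      (x ∈ Γ → ∀ v, ‖v‖ < r → 0 ≤ v 0 → (π v ∈ Γ ↔ v 0 = 0)) ∧
      ∀ ρ > 0, ∀ᶠ y in 𝓝[D] x, ∃ v, ‖v‖ < ρ ∧ (x ∈ Γ → 0 ≤ v 0) ∧ π v = y := by
  have near : ∀ φ : PLEquiv (cube 2) D, ∀ ρ > 0, ∀ᶠ y in 𝓝[D] x, ‖φ.g y - φ.g x‖ < ρ :=
    fun φ ρ hρ => by
      have := φ.pg.1 x hx (ball_mem_nhds _ hρ)
      filter_upwards [this] with y hy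
      exact mem_ball_iff_norm.1 hy
  by_cases hb : x ∈ Γ
  · obtain ⟨φ, h1, h2⟩ := move h hb
    let a : (Fin 2 → ℝ) → Fin 2 → ℝ := fun v => ![-1 + |v 0|, v 1]
    have apl : ∀ K, PLOn a K := fun K => pl_pi fun i => by
      fin_cases i
      · exact pl_add (plOn_const _ _) (pl_abs (pl_coord (plOn_id K) 0))
      · exact pl_coord (plOn_id K) 1
    have c0 : ∀ v : Fin 2 → ℝ, ‖v‖ < 1 → |v 0| < 1 ∧ |v 1| < 1 := fun v hv =>
      ⟨(norm_le_pi_norm v 0).trans_lt hv, (norm_le_pi_norm v 1).trans_lt hv⟩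
    have am : ∀ v, ‖v‖ < 1 → a v ∈ cube 2 := fun v hv => mem_closedBall_zero_iff.2
      ((pi_norm_le_iff_of_nonneg zero_le_one).2 fun i => by
        fin_cases i
        · show abs (-1 + |v 0|) ≤ 1
          rw [abs_le]; constructor <;> linarith [abs_nonneg (v 0), (c0 v hv).1]
        · exact (c0 v hv).2.le)
    have a0 : a 0 = ![-1, 0] := by simp [a]
    have hp : (![-1, 0] : Fin 2 → ℝ) ∈ cube 2 := a0 ▸ am 0 (by simp)
    refine ⟨fun v => φ.f (a v), 1, one_pos, by simp only [a0, h2],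
      φ.pf.comp (apl _) fun v hv => am v (mem_ball_zero_iff.1 hv),
      fun v hv => φ.mf (am v (mem_ball_zero_iff.1 hv)), fun v hv e => ?_, fun v hv w hw e => ?_,
      fun _ v hv h0 => ?_, fun ρ hρ => ?_⟩
    · have h3 := φ.injOn (am v hv) hp (e.trans h2.symm)
      have h4 : -1 + |v 0| = -1 := congrFun h3 0
      have h5 : v 1 = 0 := congrFun h3 1
      funext i
      fin_cases i
      · exact abs_eq_zero.1 (show |v 0| = 0 by linarith)
      · exact h5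
    · have h3 := φ.injOn (am v hv.1) (am w hw.1) e
      have h4 : -1 + |v 0| = -1 + |w 0| := congrFun h3 0
      have h5 : v 1 = w 1 := congrFun h3 1
      rw [abs_of_nonneg (hv.2 hb), abs_of_nonneg (hw.2 hb)] at h4
      funext i
      fin_cases i
      · show v 0 = w 0
        linarith
      · exact h5
    · rw [mem_image_iff φ sph_subset_cube h1 (am v hv), mem_sph2 (am v hv)]
      show abs (-1 + |v 0|) = 1 ∨ |v 1| = 1 ↔ _
      have h3 := c0 v hv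
      rw [abs_of_nonneg h0] at h3 ⊢
      rw [abs_of_nonpos (by linarith [h3.1]), or_iff_left h3.2.ne]
      constructor <;> intro h <;> linarith
    · have g0 : φ.g x = ![-1, 0] := by rw [← h2, φ.li _ hp]
      filter_upwards [near φ ρ hρ, self_mem_nhdsWithin] with y hy hyD
      have h3 : |φ.g y 0| ≤ 1 :=
        (norm_le_pi_norm (φ.g y) 0).trans (mem_closedBall_zero_iff.1 (φ.mg hyD))
      have h4 : (φ.g y - φ.g x) 0 = φ.g y 0 + 1 := by simp [g0]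
      have h5 : 0 ≤ (φ.g y - φ.g x) 0 := by rw [h4]; linarith [(abs_le.1 h3).1]
      refine ⟨_, hy, fun _ => h5, ?_⟩
      have h6 : a (φ.g y - φ.g x) = φ.g y := by
        funext i
        fin_cases i
        · show -1 + |(φ.g y - φ.g x) 0| = φ.g y 0
          rw [abs_of_nonneg h5, h4]; ring
        · show φ.g y 1 - φ.g x 1 = φ.g y 1
          rw [g0]; exact sub_zero _
      simp only [h6, φ.ri y hyD]
  · obtain ⟨φ, h1⟩ := h
    have h2 : ‖φ.g x‖ < 1 := lt_of_le_of_ne (mem_closedBall_zero_iff.1 (φ.mg hx)) fun e =>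
      hb (h1 ▸ ⟨φ.g x, mem_sphere_zero_iff_norm.2 e, φ.ri x hx⟩)
    have am : ∀ v, ‖v‖ < 1 - ‖φ.g x‖ → φ.g x + v ∈ cube 2 := fun v hv =>
      mem_closedBall_zero_iff.2 (by linarith [norm_add_le (φ.g x) v])
    refine ⟨fun v => φ.f (φ.g x + v), 1 - ‖φ.g x‖, by linarith, by simp only [add_zero, φ.ri x hx],
      φ.pf.comp (pl_add (plOn_const _ _) (plOn_id _)) fun v hv => am v (mem_ball_zero_iff.1 hv),
      fun v hv => φ.mf (am v (mem_ball_zero_iff.1 hv)), fun v hv e => ?_, fun v hv w hw e => ?_,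
      fun h => absurd h hb, fun ρ hρ => ?_⟩
    · exact add_eq_left.1 (φ.injOn (am v hv) (φ.mg hx) (e.trans (φ.ri x hx).symm))
    · exact add_left_cancel (φ.injOn (am v hv.1) (am w hw.1) e)
    · filter_upwards [near φ ρ hρ, self_mem_nhdsWithin] with y hy hyD
      exact ⟨_, hy, fun h => absurd h hb, by simp only [add_sub_cancel, φ.ri y hyD]⟩

/-- a flat chart gives a bicollar -/
theorem pc_of_chart {b : Prop} {W N D B : Set E}
    (Ψ : PLEquiv {y | y ∈ cube 3 ∧ (b → 0 ≤ y 0)} B) (hB : B ⊆ W)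
    (hD : ∀ y ∈ cube 3, (b → 0 ≤ y 0) → (Ψ.f y ∈ D ↔ y 2 = 0))
    (hN : ∀ y ∈ cube 3, (b → 0 ≤ y 0) → (Ψ.f y ∈ N ↔ b ∧ y 0 = 0)) :
    ∃ P : Pc (-1) W N D, P.O = B := by
  let u : V → ℝ → V := fun y t => ![y 0, y 1, t]
  have um : ∀ y ∈ {y | y ∈ cube 3 ∧ (b → 0 ≤ y 0)}, ∀ t ∈ Icc (-1:ℝ) 1,
      u y t ∈ {y | y ∈ cube 3 ∧ (b → 0 ≤ y 0)} := fun y hy t ht =>
    ⟨mem_closedBall_zero_iff.2 ((pi_norm_le_iff_of_nonneg zero_le_one).2 fun i => by
      fin_cases i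
      · exact (norm_le_pi_norm y 0).trans (mem_closedBall_zero_iff.1 hy.1)
      · exact (norm_le_pi_norm y 1).trans (mem_closedBall_zero_iff.1 hy.1)
      · exact abs_le.2 ht), hy.2⟩
  have upl : ∀ {F : Type _} [NormedAddCommGroup F] [NormedSpace ℝ F] {K : Set F} {f : F → V}
      {g : F → ℝ}, PLOn f K → PLOn g K → PLOn (fun z => u (f z) (g z)) K := by
    intro F _ _ K f g hf hg
    refine pl_pi fun i => ?_
    fin_cases i
    · exact pl_coord hf 0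
    · exact pl_coord hf 1
    · exact hg
  have uu : ∀ y, u y (y 2) = y := fun y => by funext i; fin_cases i <;> rfl
  have z0 : (0:ℝ) ∈ Icc (-1:ℝ) 1 := ⟨by norm_num, zero_le_one⟩
  have cl : IsClosed {y : V | b → 0 ≤ y 0} := by
    by_cases hb : b
    · simpa [hb] using isClosed_le continuous_const (continuous_apply 0)
    · simp [hb]
  refine ⟨⟨{x | x ∈ B ∧ Ψ.g x 2 = 0}, B,
    ⟨fun q => Ψ.f (u (Ψ.g q.1) q.2), fun y => (Ψ.f (u (Ψ.g y) 0), Ψ.g y 2),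
      Ψ.pf.comp (upl (Ψ.pg.comp (pl_fst' _) fun q hq => hq.1.1) (pl_snd' _))
        fun q hq => um _ (Ψ.mg hq.1.1) _ hq.2,
      pl_pair (Ψ.pf.comp (upl Ψ.pg (plOn_const _ _)) fun y hy => um _ (Ψ.mg hy) _ z0)
        (pl_coord Ψ.pg 2),
      fun q hq => Ψ.mf (um _ (Ψ.mg hq.1.1) _ hq.2),
      fun y hy => ⟨⟨Ψ.mf (um _ (Ψ.mg hy) _ z0), ?_⟩, ?_⟩, fun q hq => ?_, fun y hy => ?_⟩,
    ?_, fun x hx => ?_, hB, fun x hx => ?_, fun x hx t ht h => ?_, fun x hx t ht => ?_⟩, rfl⟩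
  · rw [Ψ.li _ (um _ (Ψ.mg hy) _ z0)]; rfl
  · exact abs_le.1 ((norm_le_pi_norm (Ψ.g y) 2).trans (mem_closedBall_zero_iff.1 (Ψ.mg hy).1))
  · simp only [Ψ.li _ (um _ (Ψ.mg hq.1.1) _ hq.2)]
    refine Prod.ext ?_ rfl
    show Ψ.f (u (Ψ.g q.1) 0) = q.1
    have h1 := uu (Ψ.g q.1)
    rw [hq.1.2] at h1
    rw [h1, Ψ.ri _ hq.1.1]
  · simp only [Ψ.li _ (um _ (Ψ.mg hy) _ z0)]
    show Ψ.f (u (Ψ.g y) (Ψ.g y 2)) = y
    rw [uu, Ψ.ri _ hy]
  · have e : {x | x ∈ B ∧ Ψ.g x 2 = 0} =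
        Ψ.f '' ((cube 3 ∩ {y | b → 0 ≤ y 0}) ∩ {y | y 2 = 0}) := by
      ext x
      constructor
      · intro hx
        exact ⟨Ψ.g x, ⟨Ψ.mg hx.1, hx.2⟩, Ψ.ri x hx.1⟩
      · rintro ⟨y, hy, rfl⟩
        exact ⟨Ψ.mf hy.1, by rw [Ψ.li y hy.1]; exact hy.2⟩
    rw [e]
    exact (((isCompact_closedBall _ _).inter_right cl).inter_right
      (isClosed_eq (continuous_apply 2) continuous_const)).image_of_continuousOn
      (Ψ.pf.1.mono inter_subset_left)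
  · have := (hD _ (Ψ.mg hx.1).1 (Ψ.mg hx.1).2).2 hx.2
    rwa [Ψ.ri x hx.1] at this
  · show Ψ.f (u (Ψ.g x) 0) = x
    have h1 := uu (Ψ.g x)
    rw [hx.2] at h1
    rw [h1, Ψ.ri _ hx.1]
  · exact (hD _ (um _ (Ψ.mg hx.1) _ ht).1 (um _ (Ψ.mg hx.1) _ ht).2).1 h
  · have h1 := hN _ (Ψ.mg hx.1).1 (Ψ.mg hx.1).2
    rw [Ψ.ri x hx.1] at h1
    rw [h1]
    exact hN _ (um _ (Ψ.mg hx.1) _ ht).1 (um _ (Ψ.mg hx.1) _ ht).2

/-- **local bicollars** of a surface `S` which is, near `x`, a proper disc -/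
theorem local_pc {W dW S D Γ : Set E} {x : E} {O : Set E} {O' : Set V} (e : PLEquiv O O')
    (hOW : O ⊆ W) (hO : O ∈ 𝓝[W] x) (hO' : ROpen up O') (bd : ∀ y ∈ O, y ∈ dW ↔ e.f y 2 = 0)
    (h : IsBall 2 D Γ) (hx : x ∈ D) (hDW : D ⊆ W) (hDS : D ⊆ S) (hS : D ∈ 𝓝[S] x)
    (hΓ : ∀ᶠ y in 𝓝[D] x, y ∈ Γ ↔ y ∈ dW) : ∃ P : Pc (-1) W dW S, P.O ∈ 𝓝[W] x := by
  obtain ⟨π, r₀, hr₀, π0, πpl, πm, π1, πi, πb, πn⟩ := param h hx
  have hxO : x ∈ O := mem_of_mem_nhdsWithin (hDW hx) hO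
  have hxΓ : x ∈ Γ ↔ x ∈ dW := hΓ.self_of_nhdsWithin hx
  obtain ⟨A', hA', rfl⟩ := hO'
  obtain ⟨r, hr, hrr, hπ⟩ : ∃ r > 0, r ≤ r₀ ∧ ∀ v, ‖v‖ < r → π v ∈ O ∧ (π v ∈ Γ ↔ π v ∈ dW) := by
    have h1 : Tendsto π (𝓝 0) (𝓝[D] x) := by
      have := (πpl.1 0 (mem_ball_self hr₀)).tendsto_nhdsWithin πm
      rwa [π0, nhdsWithin_eq_nhds.2 (ball_mem_nhds _ hr₀)] at this
    obtain ⟨ε, hε, h2⟩ := Metric.eventually_nhds_iff.1
      (h1.eventually (hΓ.and (nhdsWithin_mono _ hDW hO)))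
    refine ⟨min ε r₀, lt_min hε hr₀, min_le_right _ _, fun v hv => ?_⟩
    have := h2 (y := v) (by rw [dist_zero_right]; exact hv.trans_le (min_le_left _ _))
    exact ⟨this.2, this.1⟩
  have ψ0 : sw (e.f (π 0)) = sw (e.f x) := by rw [π0]
  have swi : ∀ {a b : V}, sw a = sw b → a = b := fun {a b} h => by rw [← sw_sw a, h, sw_sw]
  obtain ⟨Φ, Φ0, Φb, δ₀, hδ₀, ΦS⟩ := model (x ∈ Γ) (ψ := fun v => sw (e.f (π v))) hr
    ((pl_sw univ).comp (e.pf.comp (πpl.mono (ball_subset_ball hrr))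
      fun v hv => (hπ v (mem_ball_zero_iff.1 hv)).1) (mapsTo_univ _ _))
    (fun v hv h => π1 v (hv.trans_le hrr) (e.injOn (hπ v hv).1 hxO (swi (h.trans ψ0))))
    (fun v hv w hw h => πi ⟨hv.1.trans_le hrr, hv.2⟩ ⟨hw.1.trans_le hrr, hw.2⟩
      (e.injOn (hπ v hv.1).1 (hπ w hw.1).1 (swi h)))
    (fun hb v hv h0 => by
      simp only [sw_zero]
      exact ⟨(e.mf (hπ v hv).1).2, by
        rw [← bd _ (hπ v hv).1, ← (hπ v hv).2, πb hb v (hv.trans_le hrr) h0]⟩)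
    (S := {y | sw y ∈ A' ∩ up ∧ e.g (sw y) ∈ S})
    (fun v hv _ => by
      simp only [mem_ofPred_eq, sw_sw, e.li _ (hπ v hv).1]
      exact ⟨e.mf (hπ v hv).1, hDS (πm (mem_ball_zero_iff.2 (hv.trans_le hrr)))⟩)
    (fun ρ hρ => by
      have h1 : Tendsto (fun y => e.g (sw y)) (𝓝[{y | sw y ∈ A' ∩ up ∧ e.g (sw y) ∈ S}]
          (sw (e.f x))) (𝓝[S] x) := by
        have := ((e.pg.comp (pl_sw _) (fun y (hy : y ∈ {y | sw y ∈ A' ∩ up ∧ e.g (sw y) ∈ S})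
          => hy.1)).1 (sw (e.f x)) (by
            simp only [mem_ofPred_eq, sw_sw, e.li _ hxO]
            exact ⟨e.mf hxO, hDS hx⟩)).tendsto_nhdsWithin (t := S) fun y hy => hy.2
        simpa only [sw_sw, e.li _ hxO] using this
      simp only [π0]
      filter_upwards [h1.eventually (nhdsWithin_le_of_mem hS (πn ρ hρ)), self_mem_nhdsWithin]
        with y ⟨v, h2, h3, h4⟩ hy
      exact ⟨v, h2, h3, by rw [h4, e.ri _ hy.1, sw_sw]⟩)
  simp only [π0] at ΦS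
  set z := e.f x with hz
  have hzm : z ∈ A' ∩ up := e.mf hxO
  obtain ⟨δ, hδ, hδ1, hδ2, hδ3⟩ : ∃ δ > 0, δ ≤ δ₀ ∧ closedBall z δ ⊆ A' ∧ (x ∉ Γ → δ < z 2) := by
    obtain ⟨ε, hε, h1⟩ := Metric.nhds_basis_closedBall.mem_iff.1 (hA'.mem_nhds hzm.1)
    by_cases hb : x ∈ Γ
    · exact ⟨min ε δ₀, lt_min hε hδ₀, min_le_right _ _,
        (closedBall_subset_closedBall (min_le_left _ _)).trans h1, fun h => absurd hb h⟩
    · have h2 : 0 < z 2 := lt_of_le_of_ne hzm.2 fun h => hb (hxΓ.2 ((bd x hxO).2 h.symm))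
      exact ⟨min (min ε δ₀) (z 2 / 2), lt_min (lt_min hε hδ₀) (half_pos h2),
        (min_le_left _ _).trans (min_le_right _ _), (closedBall_subset_closedBall
          ((min_le_left _ _).trans (min_le_left _ _))).trans h1,
        fun _ => (min_le_right _ _).trans_lt (half_lt_self h2)⟩
  have z0 : x ∈ Γ → z 2 = 0 := fun hb => (bd x hxO).1 (hxΓ.1 hb)
  have c0 : ∀ y ∈ cube 3, -1 ≤ y 0 := fun y hy =>
    (abs_le.1 ((norm_le_pi_norm y 0).trans (mem_closedBall_zero_iff.1 hy))).1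
  let Φ' : PLEquiv {y | y ∈ cube 3 ∧ (x ∈ Γ → 0 ≤ y 0)} {y | y ∈ cube 3 ∧ (x ∈ Γ → 0 ≤ y 0)} :=
    Φ.restr (fun _ h => h.1) (fun _ h => h.1)
      (fun y hy => ⟨Φ.mf hy.1, fun hb => (Φb hb y).1.2 (hy.2 hb)⟩)
      (fun y hy => ⟨Φ.mg hy.1, fun hb => (Φb hb _).1.1 (by rw [Φ.ri y hy.1]; exact hy.2 hb)⟩)
  have sa : ∀ (a c : V) (t : ℝ), sw (a + t • c) = sw a + t • sw c := fun _ _ _ => rfl
  let a : PLEquiv {y | y ∈ cube 3 ∧ (x ∈ Γ → 0 ≤ y 0)} (closedBall z δ ∩ up) :=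
    ⟨fun y => z + δ • sw y, fun w => sw (δ⁻¹ • (w - z)),
      pl_add (plOn_const _ _) (pl_smul _ (pl_sw _)),
      (pl_sw univ).comp (pl_smul _ (pl_sub (plOn_id _) (plOn_const _ _))) (mapsTo_univ _ _),
      fun y hy => ⟨by
        rw [mem_closedBall_iff_norm, add_sub_cancel_left, norm_smul, norm_sw, Real.norm_eq_abs,
          abs_of_pos hδ]
        nlinarith [mem_closedBall_zero_iff.1 hy.1], by
        show 0 ≤ z 2 + δ * sw y 2
        rw [sw_two]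
        by_cases hb : x ∈ Γ
        · rw [z0 hb, zero_add]; exact mul_nonneg hδ.le (hy.2 hb)
        · nlinarith [hδ3 hb, c0 y hy.1]⟩,
      fun w hw => ⟨by
        rw [cube, mem_closedBall_zero_iff, norm_sw, norm_smul, norm_inv, Real.norm_eq_abs,
          abs_of_pos hδ, inv_mul_le_iff₀ hδ, mul_one]
        exact mem_closedBall_iff_norm.1 hw.1, fun hb => by
        show 0 ≤ sw (δ⁻¹ • (w - z)) 0
        rw [sw_zero]
        show 0 ≤ δ⁻¹ * (w 2 - z 2)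
        rw [z0 hb, sub_zero]
        exact mul_nonneg (inv_pos.2 hδ).le hw.2⟩,
      fun y _ => by
        simp only [add_sub_cancel_left, smul_smul, inv_mul_cancel₀ hδ.ne', one_smul, sw_sw],
      fun w _ => by
        simp only [sw_sw, smul_smul, mul_inv_cancel₀ hδ.ne', one_smul, add_sub_cancel]⟩
  have hsub : closedBall z δ ∩ up ⊆ A' ∩ up := inter_subset_inter_left _ hδ2
  obtain ⟨P, hP⟩ := pc_of_chart (W := W) (N := dW) (D := S)
    ((Φ'.trans a).trans (e.symm.restrImage hsub))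
    (by rintro _ ⟨w, hw, rfl⟩; exact hOW (e.mg (hsub hw)))
    (fun y hy hy' => by
      have h1 := ΦS δ hδ hδ1 y hy
      rw [and_iff_left hy', mem_ofPred_eq, sa, sw_sw] at h1
      rw [← h1]
      exact (and_iff_right (hsub (a.mf (Φ'.mf ⟨hy, hy'⟩)))).symm)
    (fun y hy hy' => by
      have h1 := hsub (a.mf (Φ'.mf ⟨hy, hy'⟩))
      refine (bd _ (e.mg h1)).trans ?_
      rw [e.ri _ h1]
      show z 2 + δ * sw (Φ.f y) 2 = 0 ↔ _
      rw [sw_two]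
      by_cases hb : x ∈ Γ
      · rw [z0 hb, zero_add, mul_eq_zero, or_iff_right hδ.ne', (Φb hb y).2, and_iff_right hb]
      · refine iff_of_false (ne_of_gt ?_) fun h => hb h.1
        nlinarith [hδ3 hb, c0 _ (Φ.mf hy)])
  refine ⟨P, ?_⟩
  rw [hP]
  have h1 := nhds_image e.symm hzm
    (mem_nhdsWithin_of_mem_nhds (closedBall_mem_nhds z hδ))
  have h2 : e.symm.f z = x := e.li x hxO
  rw [h2] at h1
  exact mem_of_superset (nhdsWithin_le_of_mem hO h1)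
    (image_mono fun w hw => ⟨hw.1, hw.2.2⟩)

theorem ball_lc {k : ℕ} {D Γ : Set E} (h : IsBall k D Γ) {x : E} (hx : x ∈ D) {W : Set E}
    (hW : W ∈ 𝓝 x) : ∃ Q ⊆ D ∩ W, IsPreconnected Q ∧ Q ∈ 𝓝[D] x := by
  obtain ⟨φ, -⟩ := h
  have h1 : φ.f ⁻¹' W ∈ 𝓝[cube k] (φ.g x) :=
    φ.pf.1 _ (φ.mg hx) (by rw [φ.ri x hx]; exact hW)
  obtain ⟨ε, hε, h2⟩ := Metric.mem_nhdsWithin_iff.1 h1
  refine ⟨φ.f '' (ball (φ.g x) ε ∩ cube k), ?_, ?_, ?_⟩
  · rintro _ ⟨v, hv, rfl⟩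
    exact ⟨φ.mf hv.2, h2 hv⟩
  · exact ((convex_ball _ _).inter (convex_closedBall _ _)).isPreconnected.image _
      (φ.pf.1.mono inter_subset_right)
  · have := nhds_image φ (φ.mg hx) (mem_nhdsWithin_of_mem_nhds (ball_mem_nhds _ hε))
    rwa [φ.ri x hx] at this

end param

/-- local bicollars in an abstract manifold -/
theorem mfE_pc {E : Type} [NormedAddCommGroup E] [NormedSpace ℝ E] {W dW S D Γ : Set E}
    (hW : MfE W dW) {x : E} (h : IsBall 2 D Γ) (hx : x ∈ D) (hDW : D ⊆ W) (hDS : D ⊆ S)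
    (hS : D ∈ 𝓝[S] x) (hΓ : ∀ᶠ y in 𝓝[D] x, y ∈ Γ ↔ y ∈ dW) :
    ∃ P : Pc (-1) W dW S, P.O ∈ 𝓝[W] x := by
  obtain ⟨k, hk⟩ := hW.2 x (hDW hx)
  obtain ⟨A, hA, e⟩ := k.opn
  exact local_pc k.e (e.le.trans inter_subset_right)
    (mem_nhdsWithin.2 ⟨A, hA, (e.le hk).1, e.ge⟩) k.opn' k.bd h hx hDW hDS hS hΓ

/-- **(FLAT)** -/
theorem flatStmt : FlatStmt := by
  intro S D Γ x h hx hxΓ hDS hS
  obtain ⟨π, r, hr, π0, πpl, πm, π1, πi, -, πn⟩ := param h hx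
  obtain ⟨Φ, Φ0, -, δ, hδ, ΦS⟩ := model (x ∈ Γ) hr πpl (fun v hv e => π1 v hv (e.trans π0)) πi
    (fun h => absurd h hxΓ) (S := S) (fun v hv _ => hDS (πm (mem_ball_zero_iff.2 hv)))
    (fun ρ hρ => by rw [π0]; exact nhdsWithin_le_of_mem hS (πn ρ hρ))
  let a : PLEquiv (cube 3) (closedBall x δ) :=
    ⟨fun y => x + δ • y, fun w => δ⁻¹ • (w - x), pl_add (plOn_const _ _) (pl_smul _ (plOn_id _)),
      pl_smul _ (pl_sub (plOn_id _) (plOn_const _ _)),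
      fun y hy => by
        rw [mem_closedBall_iff_norm, add_sub_cancel_left, norm_smul, Real.norm_eq_abs,
          abs_of_pos hδ]
        nlinarith [mem_closedBall_zero_iff.1 hy],
      fun w hw => by
        rw [cube, mem_closedBall_zero_iff, norm_smul, norm_inv, Real.norm_eq_abs,
          abs_of_pos hδ, inv_mul_le_iff₀ hδ, mul_one]
        exact mem_closedBall_iff_norm.1 hw,
      fun y _ => by simp only [add_sub_cancel_left, smul_smul, inv_mul_cancel₀ hδ.ne', one_smul],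
      fun w _ => by simp only [smul_smul, mul_inv_cancel₀ hδ.ne', one_smul, add_sub_cancel]⟩
  have key : ∀ y ∈ cube 3, (Φ.trans a).f y ∈ S ↔ y ∈ fl := fun y hy => by
    have := ΦS δ hδ le_rfl y hy
    rw [π0, and_iff_left fun h => absurd h hxΓ] at this
    exact this
  refine ⟨_, Φ.trans a, ?_, closedBall_mem_nhds x hδ, ?_⟩
  · show x + δ • Φ.f 0 = x
    rw [Φ0, smul_zero, add_zero]
  · ext w
    constructor
    · intro hw
      have h1 := (Φ.trans a).mg hw.1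
      have h2 := (Φ.trans a).ri w hw.1
      exact ⟨_, ⟨h1, (key _ h1).1 (by rw [h2]; exact hw.2)⟩, h2⟩
    · rintro ⟨y, hy, rfl⟩
      exact ⟨(Φ.trans a).mf hy.1, (key y hy.1).2 hy.2⟩

/-- the cube as a product -/
def cubeProd : PLEquiv (cube 3) (cube 2 ×ˢ Icc (-1:ℝ) 1) where
  f := fun y => (![y 0, y 1], y 2)
  g := fun q => ![q.1 0, q.1 1, q.2]
  pf := pl_pair (pl_pi fun i => by
    fin_cases i
    · exact pl_coord (plOn_id _) 0
    · exact pl_coord (plOn_id _) 1) (pl_coord (plOn_id _) 2)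
  pg := pl_pi fun i => by
    fin_cases i
    · exact pl_coord (pl_fst' _) 0
    · exact pl_coord (pl_fst' _) 1
    · exact pl_snd' _
  mf := fun y hy => ⟨mem_closedBall_zero_iff.2 ((pi_norm_le_iff_of_nonneg zero_le_one).2
    fun i => by
      fin_cases i
      · exact (norm_le_pi_norm y 0).trans (mem_closedBall_zero_iff.1 hy)
      · exact (norm_le_pi_norm y 1).trans (mem_closedBall_zero_iff.1 hy)),
    abs_le.1 ((norm_le_pi_norm y 2).trans (mem_closedBall_zero_iff.1 hy))⟩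
  mg := fun q hq => mem_closedBall_zero_iff.2 ((pi_norm_le_iff_of_nonneg zero_le_one).2
    fun i => by
      fin_cases i
      · exact (norm_le_pi_norm q.1 0).trans (mem_closedBall_zero_iff.1 hq.1)
      · exact (norm_le_pi_norm q.1 1).trans (mem_closedBall_zero_iff.1 hq.1)
      · exact abs_le.2 hq.2)
  li := fun y _ => by funext i; fin_cases i <;> rfl
  ri := fun q _ => Prod.ext (by funext i; fin_cases i <;> rfl) rfl

/-- **(THICKE)** -/
theorem thickE : ThickE := by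
  intro E _ _ _ W dW D A hW h hDW hA hDA
  have hD := h.isCompact
  obtain ⟨S, hS⟩ := sides (M := W) (N := dW) hD hDW
    (fun ι _ => by
      obtain ⟨φ, -⟩ := h
      rw [← φ.image_eq]
      exact (Coh_184.trivAll_convex (isCompact_closedBall _ _)
        (convex_closedBall _ _)).of_image_compact (isCompact_closedBall _ _) isClosed_closedBall
        φ.pf.1 φ.injOn)
    (fun x hx W hW => ball_lc h hx hW)
    (fun x hx => mfE_pc hW h hx hDW Subset.rfl self_mem_nhdsWithin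
      (eventually_nhdsWithin_of_forall fun y hy => and_iff_right hy))
  obtain ⟨P, h1, h2, h3, -⟩ := bicollar hD hDW hA hDA S hS
  obtain ⟨φ, hφ⟩ := h
  let e : PLEquiv (cube 3) P.O :=
    (cubeProd.trans (prodEquiv (cast φ rfl h1.symm) (PLEquiv.refl _))).trans P.c
  have ef : ∀ y, e.f y = P.c.f (φ.f ![y 0, y 1], y 2) := fun _ => rfl
  have m1 : ∀ y ∈ cube 3, ![y 0, y 1] ∈ cube 2 := fun y hy => (cubeProd.mf hy).1
  have m2 : ∀ y ∈ cube 3, φ.f ![y 0, y 1] ∈ P.Q := fun y hy => h1.ge (φ.mf (m1 y hy))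
  have key : ∀ y ∈ cube 3, e.f y ∈ dW ↔ |y 0| = 1 ∨ |y 1| = 1 := fun y hy => by
    rw [ef, P.inN _ (m2 y hy) (y 2) (cubeProd.mf hy).2,
      ← and_iff_right (b := φ.f ![y 0, y 1] ∈ dW) (φ.mf (m1 y hy)), ← mem_inter_iff,
      mem_image_iff φ sph_subset_cube hφ (m1 y hy), mem_sph2 (m1 y hy)]
    rfl
  refine ⟨P.O, e, subset_inter P.OA h2, ?_, ?_, h3⟩
  · ext w
    constructor
    · rintro ⟨y, hy, rfl⟩
      have h4 : y 2 = 0 := hy.2
      rw [ef, h4, P.zero _ (m2 y hy.1)]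
      exact φ.mf (m1 y hy.1)
    · intro hw
      have h4 := e.mg (P.QO (by norm_num) (h1.ge hw))
      have h5 := e.ri _ (P.QO (by norm_num) (h1.ge hw))
      refine ⟨e.g w, ⟨h4, ?_⟩, h5⟩
      exact P.inD _ (m2 _ h4) _ (cubeProd.mf h4).2 (by rw [← ef, h5]; exact hw)
  · ext w
    constructor
    · intro hw
      have h4 := e.mg hw.1
      have h5 := e.ri _ hw.1
      exact ⟨e.g w, ⟨h4, (key _ h4).1 (by rw [h5]; exact hw.2)⟩, h5⟩
    · rintro ⟨y, hy, rfl⟩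
      exact ⟨e.mf hy.1, (key y hy.1).2 hy.2⟩

/-- **(THICK)** -/
theorem thickStmt : ThickStmt := fun M dM D _ U hM h hDM hΓ hU hDU =>
  thickE V M dM D U (Tw9.mfE_of_mf hM) (hΓ ▸ h) hDM hU hDU

end Crest.Agent.X212.Thk1
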