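import Crest.Agent.R096.Ce2_537

/-!
# X212 / T layer / THICK (helper1), part 0: calculus of `PLOn`
-/

set_option autoImplicit false

open Set Metric Topology

namespace Crest.Agent.X212.Thk1

open Crest.Agent.R096.Ce_537

variable {E F G : Type*} [NormedAddCommGroup E] [NormedSpace ℝ E] [NormedAddCommGroup F]
  [NormedSpace ℝ F] [NormedAddCommGroup G] [NormedSpace ℝ G]

theorem pl_clm (L : E →L[ℝ] F) (K : Set E) : PLOn (fun x => L x) K :=
  ⟨L.continuous.continuousOn, {(L : E →ₗ[ℝ] F).toAffineMap}, fun _ _ =>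
    ⟨_, Finset.mem_singleton_self _, rfl⟩⟩

theorem pl_pair {f : E → F} {g : E → G} {K : Set E} (hf : PLOn f K) (hg : PLOn g K) :
    PLOn (fun x => (f x, g x)) K := by
  classical
  obtain ⟨f1, S, f2⟩ := hf
  obtain ⟨g1, T, g2⟩ := hg
  refine ⟨f1.prodMk g1, (S ×ˢ T).image fun p => p.1.prod p.2, fun x hx => ?_⟩
  obtain ⟨a, ha, e⟩ := f2 x hx
  obtain ⟨c, hc, e'⟩ := g2 x hx
  refine ⟨a.prod c, Finset.mem_image.2 ⟨(a, c), Finset.mem_product.2 ⟨ha, hc⟩, rfl⟩, ?_⟩
  show (f x, g x) = (a x, c x)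
  rw [e, e']

theorem pl_lin {f : E → F} {K : Set E} (hf : PLOn f K) (L : F →L[ℝ] G) :
    PLOn (fun x => L (f x)) K :=
  (pl_clm L univ).comp hf (mapsTo_univ _ _)

theorem pl_fst {f : E → F × G} {K : Set E} (hf : PLOn f K) : PLOn (fun x => (f x).1) K :=
  pl_lin hf (ContinuousLinearMap.fst ℝ F G)

theorem pl_snd {f : E → F × G} {K : Set E} (hf : PLOn f K) : PLOn (fun x => (f x).2) K :=
  pl_lin hf (ContinuousLinearMap.snd ℝ F G)

theorem pl_fst' (K : Set (F × G)) : PLOn (fun x => x.1) K := pl_fst (plOn_id K)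

theorem pl_snd' (K : Set (F × G)) : PLOn (fun x => x.2) K := pl_snd (plOn_id K)

theorem pl_add {f g : E → F} {K : Set E} (hf : PLOn f K) (hg : PLOn g K) :
    PLOn (fun x => f x + g x) K :=
  pl_lin (pl_pair hf hg) (ContinuousLinearMap.fst ℝ F F + ContinuousLinearMap.snd ℝ F F)

theorem pl_sub {f g : E → F} {K : Set E} (hf : PLOn f K) (hg : PLOn g K) :
    PLOn (fun x => f x - g x) K :=
  pl_lin (pl_pair hf hg) (ContinuousLinearMap.fst ℝ F F - ContinuousLinearMap.snd ℝ F F)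

theorem pl_smul (c : ℝ) {f : E → F} {K : Set E} (hf : PLOn f K) : PLOn (fun x => c • f x) K :=
  pl_lin hf (c • ContinuousLinearMap.id ℝ F)

theorem pl_mul (c : ℝ) {f : E → ℝ} {K : Set E} (hf : PLOn f K) : PLOn (fun x => c * f x) K :=
  pl_smul c hf

theorem pl_neg {f : E → F} {K : Set E} (hf : PLOn f K) : PLOn (fun x => -f x) K :=
  pl_lin hf (-ContinuousLinearMap.id ℝ F)

/-- a continuous selection of two PL maps -/
theorem pl_sel {f g h : E → F} {K : Set E} (hf : PLOn f K) (hg : PLOn g K)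
    (hc : ContinuousOn h K) (hs : ∀ x ∈ K, h x = f x ∨ h x = g x) : PLOn h K := by
  classical
  obtain ⟨-, S, f2⟩ := hf
  obtain ⟨-, T, g2⟩ := hg
  refine ⟨hc, S ∪ T, fun x hx => ?_⟩
  rcases hs x hx with e | e
  · obtain ⟨a, ha, e'⟩ := f2 x hx
    exact ⟨a, Finset.mem_union_left _ ha, e.trans e'⟩
  · obtain ⟨a, ha, e'⟩ := g2 x hx
    exact ⟨a, Finset.mem_union_right _ ha, e.trans e'⟩

theorem pl_max {f g : E → ℝ} {K : Set E} (hf : PLOn f K) (hg : PLOn g K) :
    PLOn (fun x => max (f x) (g x)) K :=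
  pl_sel hf hg (continuous_max.comp_continuousOn (hf.1.prodMk hg.1))
    (fun x _ => max_choice (f x) (g x))

theorem pl_min {f g : E → ℝ} {K : Set E} (hf : PLOn f K) (hg : PLOn g K) :
    PLOn (fun x => min (f x) (g x)) K :=
  pl_sel hf hg (continuous_min.comp_continuousOn (hf.1.prodMk hg.1))
    (fun x _ => min_choice (f x) (g x))

theorem pl_abs {f : E → ℝ} {K : Set E} (hf : PLOn f K) : PLOn (fun x => |f x|) K :=
  pl_max hf (pl_neg hf)

theorem pl_coord {n : ℕ} {f : E → Fin n → ℝ} {K : Set E} (hf : PLOn f K) (i : Fin n) :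
    PLOn (fun x => f x i) K :=
  pl_lin hf (ContinuousLinearMap.proj (R := ℝ) (φ := fun _ : Fin n => ℝ) i)

theorem pl_sum {ι : Type*} (s : Finset ι) {f : ι → E → F} {K : Set E}
    (hf : ∀ i ∈ s, PLOn (f i) K) : PLOn (fun x => ∑ i ∈ s, f i x) K := by
  classical
  induction s using Finset.induction_on with
  | empty => simpa using plOn_const (0 : F) K
  | insert a s ha ih =>
    have := pl_add (hf a (Finset.mem_insert_self _ _))
      (ih fun i hi => hf i (Finset.mem_insert_of_mem hi))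
    simpa [Finset.sum_insert ha] using this

theorem pl_pi {n : ℕ} {f : E → Fin n → ℝ} {K : Set E} (hf : ∀ i, PLOn (fun x => f x i) K) :
    PLOn f K := by
  have := pl_sum Finset.univ (K := K)
    (f := fun i x => (ContinuousLinearMap.single ℝ (fun _ : Fin n => ℝ) i) (f x i))
    (fun i _ => pl_lin (hf i) _)
  refine this.congr fun x _ => ?_
  simp only [ContinuousLinearMap.single_apply]
  exact (Finset.univ_sum_single (f x)).symm

theorem pl_norm' {n : ℕ} (K : Set (Fin n → ℝ)) : PLOn (fun x => ‖x‖) K := by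
  classical
  refine ⟨continuous_norm.continuousOn, insert 0 ((Finset.univ : Finset (Fin n × Bool)).image
    fun p => ((if p.2 then (1:ℝ) else -1) •
      LinearMap.proj (R := ℝ) (φ := fun _ : Fin n => ℝ) p.1).toAffineMap), fun x _ => ?_⟩
  by_cases hx : x = 0
  · exact ⟨0, Finset.mem_insert_self _ _, by simp [hx]⟩
  · obtain ⟨i, hi⟩ := exists_coord hx
    refine ⟨_, Finset.mem_insert_of_mem (Finset.mem_image.2 ⟨(i, decide (0 ≤ x i)),
      Finset.mem_univ _, rfl⟩), ?_⟩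
    show ‖x‖ = _
    rw [hi]
    by_cases h0 : 0 ≤ x i
    · simp [h0, abs_of_nonneg h0]
    · simp [h0, abs_of_neg (not_le.1 h0)]

theorem pl_norm {n : ℕ} {f : E → Fin n → ℝ} {K : Set E} (hf : PLOn f K) :
    PLOn (fun x => ‖f x‖) K :=
  (pl_norm' univ).comp hf (mapsTo_univ _ _)

/-- PL bump functions in a finite dimensional space -/
theorem exists_bump [FiniteDimensional ℝ E] (x : E) {r : ℝ} (hr : 0 < r) :
    ∃ μ : E → ℝ, PLOn μ univ ∧ (∀ y, 0 ≤ μ y) ∧ (∀ y, μ y ≠ 0 → dist y x < r) ∧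
      {y | 1 ≤ μ y} ∈ 𝓝 x := by
  let L : E ≃L[ℝ] (Fin (Module.finrank ℝ E) → ℝ) :=
    (Module.finBasis ℝ E).equivFun.toContinuousLinearEquiv
  obtain ⟨C, hC, hb⟩ := (L.symm : (Fin (Module.finrank ℝ E) → ℝ) →L[ℝ] E).bound
  have hpl : PLOn (fun y => 2 - (2 * C / r) * ‖L (y - x)‖) (univ : Set E) :=
    pl_sub (plOn_const _ _) (pl_mul _ (pl_norm (pl_lin (pl_sub (plOn_id _) (plOn_const _ _))
      (L : E →L[ℝ] (Fin (Module.finrank ℝ E) → ℝ)))))
  refine ⟨fun y => max 0 (2 - (2 * C / r) * ‖L (y - x)‖), pl_max (plOn_const _ _) hpl,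
    fun y => le_max_left _ _, fun y hy => ?_, ?_⟩
  · have h1 : 0 < 2 - (2 * C / r) * ‖L (y - x)‖ := by
      by_contra h
      exact hy (max_eq_left (not_lt.1 h))
    have h2 : ‖y - x‖ ≤ C * ‖L (y - x)‖ := by simpa using hb (L (y - x))
    have h3 : (2 * C / r) * ‖L (y - x)‖ * r = 2 * (C * ‖L (y - x)‖) := by field_simp
    rw [dist_eq_norm]
    nlinarith
  · have hc : Continuous fun y => 2 - (2 * C / r) * ‖L (y - x)‖ := continuousOn_univ.1 hpl.1
    have h1 : (fun y => 2 - (2 * C / r) * ‖L (y - x)‖) ⁻¹' Ioi 1 ∈ 𝓝 x :=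
      hc.continuousAt.preimage_mem_nhds (Ioi_mem_nhds (by simp))
    filter_upwards [h1] with y hy
    exact le_max_of_le_right (le_of_lt hy)

/-- a PL equivalence carries relative neighbourhoods to relative neighbourhoods -/
theorem nhds_image {A : Set E} {B : Set F} (e : PLEquiv A B) {x : E} (hx : x ∈ A) {W : Set E}
    (hW : W ∈ 𝓝[A] x) : e.f '' (W ∩ A) ∈ 𝓝[B] (e.f x) := by
  have h1 : ContinuousWithinAt e.g B (e.f x) := e.pg.1 _ (e.mf hx)
  have h2 : Filter.Tendsto e.g (𝓝[B] (e.f x)) (𝓝[A] x) := by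
    have := h1.tendsto_nhdsWithin e.mg
    rwa [e.li x hx] at this
  filter_upwards [h2 hW, self_mem_nhdsWithin] with y hy hyB
  exact ⟨e.g y, ⟨hy, e.mg hyB⟩, e.ri y hyB⟩

end Crest.Agent.X212.Thk1
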