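import Crest.Agent.X212.Srf12.Rec
import Crest.Agent.X212.Geo46.Defs

/-!
# X212 / T (helper1): a set of edges without free ends contains an edge circle; `DiscStmt`
-/

set_option autoImplicit false

open Set

namespace Crest.Agent.X212.Thk1

open Crest.Agent.R096 Crest.Agent.R096.Ce_537 Crest.Agent.R096.Cb_609 Crest.Agent.X212.Srf12

variable {E : Type*} [NormedAddCommGroup E] [NormedSpace ℝ E]
  {S dS : Set E} {I : Type*} [PartialOrder I] {dim : I → ℕ} {K : I → Set E}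

lemma edge_ends (C : Cplx S I dim K) {e v : I} (he : dim e = 1) (hv : v < e) :
    ∃ w, w ≠ v ∧ (∀ g, g < e ↔ g = v ∨ g = w) ∧ IsBall 1 (K e) (K v ∪ K w) := by
  obtain ⟨w, hne, hw⟩ : ∃ w, w ≠ v ∧ ∀ g, g < e ↔ g = v ∨ g = w := by
    obtain ⟨a, b, hne, hab⟩ := two_vertices C he
    rcases (hab v).1 hv with rfl | rfl
    exacts [⟨b, hne.symm, hab⟩, ⟨a, hne, fun g => (hab g).trans or_comm⟩]
  refine ⟨w, hne, hw, ?_⟩
  have h := C.isBall e
  rwa [he, show {j | j < e} = {v, w} from Set.ext hw, biUnion_pair] at h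

/-- a nonempty set of edges without free ends contains an edge circle -/
theorem exists_ec [Finite I] (C : Cplx S I dim K) {Z : Set I} (hZ : ∀ e ∈ Z, dim e = 1)
    (hend : ∀ v, ∀ e ∈ Z, v < e → ∃ e' ∈ Z, v < e' ∧ e' ≠ e) (hne : Z.Nonempty) :
    ∃ Γ, EC dim K Γ ∧ Γ ⊆ car K Z := by
  have key : ∀ (n : ℕ) (X : Set I) (v e : I), (Z \ X).ncard = n → X ⊆ Z → e ∈ X → v < e →
      (∀ g ∈ X, v < g → g = e) → (∀ w, w ≠ v → (∃ g ∈ X, w < g) →
        ∃ B ⊆ car K X, Sub K B ∧ IsBall 1 B (K w ∪ K v)) → ∃ Γ, EC dim K Γ ∧ Γ ⊆ car K Z := by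
    intro n
    induction n using Nat.strong_induction_on with
    | _ n ih =>
    intro X v e hn hX he hv hu hB
    obtain ⟨e', he', hv', hne⟩ := hend v e (hX he) hv
    have nX : e' ∉ X := fun h => hne (hu e' h hv')
    obtain ⟨w, hwv, hw, hA⟩ := edge_ends C (hZ e' he') hv'
    have hi : ∀ x ∈ car K X, x ∈ K e' → x ∈ K v ∨ x ∈ K w ∧ ∃ g ∈ X, w < g := by
      intro x hx hx'
      obtain ⟨g, hg, hxg⟩ := mem_iUnion₂.1 hx
      obtain ⟨u, -, u1, u2, u3⟩ := edge_inter C (hZ g (hX hg)) (hZ e' he')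
        (fun a => nX (a ▸ hg)) hxg hx'
      rcases (hw u).1 u2 with rfl | rfl
      exacts [Or.inl u3, Or.inr ⟨u3, g, hg, u1⟩]
    have sZ : car K (insert e' X) ⊆ car K Z := biUnion_subset_biUnion_left (insert_subset he' hX)
    have s1 : K e' ⊆ car K (insert e' X) := subset_biUnion_of_mem (u := K) (mem_insert _ _)
    have s2 : car K X ⊆ car K (insert e' X) := biUnion_subset_biUnion_left (subset_insert _ _)
    by_cases hc : ∃ g ∈ X, w < g
    · obtain ⟨B, b1, b2, b3⟩ := hB w hwv hc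
      rw [union_comm] at b3
      have s3 := (union_subset (b1.trans s2) s1).trans sZ
      refine ⟨B ∪ K e', ec_of_sub C (circ_union b3 hA (Subset.antisymm (fun x hx => ?_)
        (subset_inter b3.subset hA.subset))) (s3.trans (car_subset C _))
        (b2.union (sub_cell C _)), s3⟩
      exact (hi x (b1 hx.1) hx.2).imp id And.left
    · have dv : ∀ u g, g ∈ Z → u < g → ∃ p, K u = {p} := fun u g hg h =>
        vertex_eq C (by have := C.mono _ _ h; have := hZ g hg; omega)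
      refine ih _ ?_ (insert e' X) w e' rfl (insert_subset he' hX) (mem_insert _ _)
        ((hw w).2 (Or.inr rfl)) (fun g hg h => hg.resolve_right fun a => hc ⟨g, a, h⟩) ?_
      · rw [← hn]
        exact ncard_lt_ncard ⟨sdiff_subset_sdiff_right (subset_insert _ _),
          fun h => (h ⟨he', nX⟩).2 (Or.inl rfl)⟩ (toFinite _)
      · rintro u huw ⟨g, hg, hug⟩
        by_cases huv : u = v
        · exact ⟨K e', s1, sub_cell C _, huv ▸ hA⟩
        have gX : g ∈ X := hg.resolve_left fun a => ((hw u).1 (a ▸ hug)).elim huv huw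
        obtain ⟨B, b1, b2, b3⟩ := hB u huv ⟨g, gX, hug⟩
        refine ⟨B ∪ K e', union_subset (b1.trans s2) s1, b2.union (sub_cell C _), ?_⟩
        have e1 : B ∩ K e' = K v := Subset.antisymm
          (fun x hx => (hi x (b1 hx.1) hx.2).resolve_right fun a => hc a.2)
          (subset_inter (subset_union_right.trans b3.subset) (subset_union_left.trans hA.subset))
        obtain ⟨p, hp⟩ := dv u g (hX gX) hug
        obtain ⟨q, hq⟩ := dv v e' he' hv'
        obtain ⟨r, hr⟩ := dv w e' he' ((hw w).2 (Or.inr rfl))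
        rw [hp, hq] at b3
        rw [hq, hr] at hA
        rw [hp, hr]
        exact arc_glue b3 hA (e1.trans hq)
  obtain ⟨e, he⟩ := hne
  obtain ⟨v, _, -, hv⟩ := two_vertices C (hZ e he)
  have hv := (hv v).2 (Or.inl rfl)
  obtain ⟨w, -, hw, hA⟩ := edge_ends C (hZ e he) hv
  refine key _ {e} v e rfl (singleton_subset_iff.2 he) rfl hv (fun g hg _ => hg) ?_
  rintro u hu ⟨g, rfl, hug⟩
  obtain rfl := ((hw u).1 hug).resolve_left hu
  exact ⟨K g, subset_biUnion_of_mem (u := K) (mem_singleton g), sub_cell C _, union_comm _ _ ▸ hA⟩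

/-- a nonempty boundary contains an edge circle -/
theorem exists_ec_bd [Finite I] (h : SC S dS I dim K) (hne : dS.Nonempty) :
    ∃ Γ, EC dim K Γ ∧ Γ ⊆ dS := by
  obtain ⟨x, hx⟩ := hne
  obtain ⟨e, he, hs, -⟩ := h.bd_cov hx
  obtain ⟨Γ, a, b⟩ := exists_ec h.cx (Z := {e | dim e = 1 ∧ K e ⊆ dS}) (fun _ a => a.1)
    (fun v e he hv => by
      obtain ⟨e', a, b, c, d⟩ := h.no_free_end (by have := h.cx.mono _ _ hv; have := he.1; omega)
        he.1 hv ((h.bds_all e he.1).2 he.2)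
      exact ⟨e', ⟨a, (h.bds_all e' a).1 c⟩, b, d⟩) ⟨e, he, hs⟩
  exact ⟨Γ, a, b.trans (iUnion₂_subset fun _ a => a.2)⟩

/-- a set of faces whose boundary edges lie in the boundary is empty or everything -/
theorem all_or_none [Finite I] (h : SC S dS I dim K) (hc : IsPreconnected S) {X : Set I}
    (hX : ∀ e, dim e = 1 → bdE X e → K e ⊆ dS) {f f' : I} (d : dim f = 2) (d' : dim f' = 2)
    (hf : f ∈ X) : f' ∈ X := by
  have key : ∀ e g g', dim e = 1 → e < g → e < g' → g ∈ X → g' ∈ X := by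
    intro e g g' de h1 h2 a
    by_contra b
    obtain ⟨k, -, -, hk⟩ := (h.bds_all e de).2 (hX e de ⟨g, a, h1, fun g'' c h3 => by
      rcases h.two e g g' g'' de h1 h2 h3 with x | x | x
      exacts [(b (x ▸ a)).elim, x.symm, (b (x ▸ c)).elim]⟩)
    exact b ((hk g (h.dim_face de h1) h1).trans (hk g' (h.dim_face de h2) h2).symm ▸ a)
  by_contra hn
  obtain ⟨y, -, hA, hB⟩ := isPreconnected_closed_iff.1 hc
    (car K {g | dim g = 2 ∧ g ∈ X}) (car K {g | dim g = 2 ∧ g ∉ X})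
    (isClosed_car h.cx _) (isClosed_car h.cx _)
    (fun y hy => by
      obtain ⟨g, hg, hyg⟩ := h.exists_face hy
      by_cases cg : g ∈ X
      · exact Or.inl (mem_biUnion (show g ∈ {g | dim g = 2 ∧ g ∈ X} from ⟨hg, cg⟩) hyg)
      · exact Or.inr (mem_biUnion (show g ∈ {g | dim g = 2 ∧ g ∉ X} from ⟨hg, cg⟩) hyg))
    ((h.cx.isBall f).nonempty.mono (subset_inter (h.cx.sub f)
      (subset_biUnion_of_mem (u := K) (show f ∈ {g | dim g = 2 ∧ g ∈ X} from ⟨d, hf⟩))))
    ((h.cx.isBall f').nonempty.mono (subset_inter (h.cx.sub f')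
      (subset_biUnion_of_mem (u := K) (show f' ∈ {g | dim g = 2 ∧ g ∉ X} from ⟨d', hn⟩))))
  obtain ⟨g, ⟨dg, pg⟩, hg⟩ := mem_iUnion₂.1 hA
  obtain ⟨g', ⟨dg', pg'⟩, hg'⟩ := mem_iUnion₂.1 hB
  obtain ⟨m, m1, m2, -⟩ := h.cx.mem_inter hg hg'
  have l1 : m < g := lt_of_le_of_ne m1 (by
    rintro rfl; exact pg' (eq_of_le h.cx m2 (by omega) ▸ pg))
  have l3 := h.cx.mono _ _ l1
  have l2 : m < g' := lt_of_le_of_ne m2 (by rintro rfl; omega)
  by_cases dm : dim m = 1
  · exact pg' (key m g g' dm l1 l2 pg)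
  · refine pg' ((h.link m (· ∈ X) (by omega) (fun e k k' h0 h1 h2 => ?_) g g' dg dg' l1 l2).1 pg)
    have de : dim e = 1 := by
      have := h.cx.mono _ _ h0; have := h.cx.mono _ _ h1; have := h.le2 k; omega
    exact ⟨key e k k' de h1 h2, key e k' k de h2 h1⟩

/-- if every edge circle bounds then a nonempty boundary is one circle -/
theorem circ_bd [Finite I] (h : SC S dS I dim K) (hc : IsPreconnected S) (hne : dS.Nonempty)
    (hb : ∀ Γ, EC dim K Γ → Γ ⊆ S → ∃ Y ⊆ {f | dim f = 2}, Bds dim K Y Γ) : Circ dS := by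
  obtain ⟨Γ, hΓ, hs⟩ := exists_ec_bd h hne
  have sS : dS ⊆ S := fun x hx => let ⟨e, _, _, a⟩ := h.bd_cov hx; h.cx.sub e a
  obtain ⟨Y, hY, hYb⟩ := hb Γ hΓ (hs.trans sS)
  obtain ⟨x, hx⟩ := hΓ.circ.nonempty
  obtain ⟨e, de, se, -⟩ := hΓ.cov x hx
  obtain ⟨f, hf, -⟩ := (hYb e de).2 se
  have e : Y = {f | dim f = 2} := hY.antisymm fun g hg =>
    all_or_none h hc (fun e de a => ((hYb e de).1 a).trans hs) (hY hf) hg hf
  refine (Subset.antisymm hs fun x hx => ?_) ▸ hΓ.circ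
  obtain ⟨g, a, b, c⟩ := h.bd_cov hx
  exact (hYb g a).1 (e ▸ (h.bds_all g a).2 b) c

/-- **DISC**, complex form, any ambient space -/
theorem sc_disc [Finite I] [FiniteDimensional ℝ E] (h : SC S dS I dim K) (hc : IsPreconnected S)
    (h1 : H1 S) (hne : dS.Nonempty) : IsBall 2 S dS := by
  have := Fintype.ofFinite I
  have hb := fun Γ => h.bounds (Γ := Γ) (h.ex_of_H1 h1)
  exact h.ball hc (circ_bd h hc hne hb) hb

theorem discStmt : Geo46.DiscStmt := fun _ _ _ _ _ _ _ h hc => sc_disc h hc.isPreconnected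

/-- a connected surface with `H¹ = 0` and nonempty boundary is a disc (any ambient space) -/
theorem srf_disc [FiniteDimensional ℝ E] (h : Srf S dS) (hc : IsPreconnected S) (h1 : H1 S)
    (hne : dS.Nonempty) : IsBall 2 S dS := by
  obtain ⟨Q, _, _, C, -, hC, -⟩ := h.exists_sc finite_empty (fun _ a => a.elim)
  exact sc_disc hC hc h1 hne

end Crest.Agent.X212.Thk1
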