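import Crest.Agent.X212.Thk1.PL

/-!
# X212 / T layer / THICK (helper1), part 1: the PL collaring theorem (Connelly's argument)

`Pc a A N D`: a product chart `Q × [a,1] ≅ O` along `D` inside `A` respecting the wall `N`.
`collar`: local collars at every point of the compact set `D` give one collar.
-/

set_option autoImplicit false

open Set Metric Topology Filter

namespace Crest.Agent.X212.Thk1

open Crest.Agent.R096.Ce_537

variable {E F : Type*} [NormedAddCommGroup E] [NormedSpace ℝ E] [NormedAddCommGroup F]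
  [NormedSpace ℝ F]

/-- product chart `Q × [a,1] ≅ O` along `D` inside `A`, respecting the wall `N`
(`a = 0`: collar, `a = -1`: bicollar) -/
structure Pc (a : ℝ) (A N D : Set E) where
  Q : Set E
  O : Set E
  c : PLEquiv (Q ×ˢ Icc a 1) O
  cQ : IsCompact Q
  QD : Q ⊆ D
  OA : O ⊆ A
  zero : ∀ u ∈ Q, c.f (u, 0) = u
  inD : ∀ u ∈ Q, ∀ t ∈ Icc a 1, c.f (u, t) ∈ D → t = 0
  inN : ∀ u ∈ Q, ∀ t ∈ Icc a 1, (c.f (u, t) ∈ N ↔ u ∈ N)

namespace Pc

variable {a : ℝ} {A N D : Set E} (P : Pc a A N D)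

theorem g1 {y : E} (hy : y ∈ P.O) : (P.c.g y).1 ∈ P.Q := (P.c.mg hy).1

theorem g2 {y : E} (hy : y ∈ P.O) : (P.c.g y).2 ∈ Icc a 1 := (P.c.mg hy).2

theorem fg {y : E} (hy : y ∈ P.O) : P.c.f ((P.c.g y).1, (P.c.g y).2) = y := P.c.ri y hy

theorem g2_zero {y : E} (hy : y ∈ P.O) (hD : y ∈ D) : (P.c.g y).2 = 0 :=
  P.inD _ (P.g1 hy) _ (P.g2 hy) (by rw [P.fg hy]; exact hD)

theorem g1_self {y : E} (hy : y ∈ P.O) (hD : y ∈ D) : (P.c.g y).1 = y := by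
  have h := P.fg hy
  rw [P.g2_zero hy hD, P.zero _ (P.g1 hy)] at h
  exact h

theorem memQ {y : E} (hy : y ∈ P.O) (hD : y ∈ D) : y ∈ P.Q := by
  rw [← P.g1_self hy hD]; exact P.g1 hy

theorem QO (ha : a ≤ 0) {u : E} (hu : u ∈ P.Q) : u ∈ P.O := by
  rw [← P.zero u hu]; exact P.c.mf ⟨hu, ha, zero_le_one⟩

theorem memD {y : E} (hy : y ∈ P.O) (h : (P.c.g y).2 = 0) : y ∈ D := by
  have h1 := P.fg hy
  rw [h, P.zero _ (P.g1 hy)] at h1
  rw [← h1]; exact P.QD (P.g1 hy)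

theorem cO : IsCompact P.O := by
  rw [← P.c.image_eq]
  exact (P.cQ.prod isCompact_Icc).image_of_continuousOn P.c.pf.1

/-- change of the ambient set -/
def amb {A' : Set E} (h : P.O ⊆ A') : Pc a A' N D :=
  ⟨P.Q, P.O, P.c, P.cQ, P.QD, h, P.zero, P.inD, P.inN⟩

/-- restriction to `Q' × [ρ a', ρ]`, rescaled; `ρ` may be negative -/
noncomputable def sc {a' ρ : ℝ} (hρ : ρ ≠ 0) (h : ∀ t ∈ Icc a' 1, ρ * t ∈ Icc a 1) {Q' : Set E}
    (hQ : Q' ⊆ P.Q) (cQ : IsCompact Q') : Pc a' A N D where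
  Q := Q'
  O := {y | y ∈ P.O ∧ (P.c.g y).1 ∈ Q' ∧ ρ⁻¹ * (P.c.g y).2 ∈ Icc a' 1}
  c :=
    { f := fun q => P.c.f (q.1, ρ * q.2)
      g := fun y => ((P.c.g y).1, ρ⁻¹ * (P.c.g y).2)
      pf := P.c.pf.comp (pl_pair (pl_fst' _) (pl_mul ρ (pl_snd' _)))
        (fun q hq => ⟨hQ hq.1, h _ hq.2⟩)
      pg := (pl_pair (pl_fst P.c.pg) (pl_mul ρ⁻¹ (pl_snd P.c.pg))).mono fun _ hy => hy.1
      mf := fun q hq => by
        have h1 : (q.1, ρ * q.2) ∈ P.Q ×ˢ Icc a 1 := ⟨hQ hq.1, h _ hq.2⟩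
        refine ⟨P.c.mf h1, ?_, ?_⟩
        · rw [P.c.li _ h1]; exact hq.1
        · rw [P.c.li _ h1, ← mul_assoc, inv_mul_cancel₀ hρ, one_mul]; exact hq.2
      mg := fun y hy => ⟨hy.2.1, hy.2.2⟩
      li := fun q hq => by
        have h1 : (q.1, ρ * q.2) ∈ P.Q ×ˢ Icc a 1 := ⟨hQ hq.1, h _ hq.2⟩
        simp only [P.c.li _ h1]
        rw [← mul_assoc, inv_mul_cancel₀ hρ, one_mul]
      ri := fun y hy => by
        simp only
        rw [← mul_assoc, mul_inv_cancel₀ hρ, one_mul]; exact P.fg hy.1 }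
  cQ := cQ
  QD := hQ.trans P.QD
  OA := fun _ hy => P.OA hy.1
  zero := fun u hu => by simp only [mul_zero]; exact P.zero u (hQ hu)
  inD := fun u hu t ht hD => by
    have := P.inD u (hQ hu) _ (h t ht) hD
    exact (mul_eq_zero.1 this).resolve_left hρ
  inN := fun u hu t ht => P.inN u (hQ hu) _ (h t ht)

/-- **shrinking** -/
theorem shrink (ha : a = 0 ∨ a = -1) (hDA : D ⊆ A) {x : E} (hx : x ∈ D) (hO : P.O ∈ 𝓝[A] x)
    {W : Set E} (hW : W ∈ 𝓝 x) :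
    ∃ r > 0, ∃ P' : Pc a A N D, P'.O ⊆ W ∧ P'.O ⊆ P.O ∧
      (∀ y, (P'.c.g y).2 = r⁻¹ * (P.c.g y).2) ∧
      ∀ u ∈ D, dist u x < r → u ∈ P'.Q ∧
        ∀ t ∈ Icc a 1, |t| < 1 → P'.O ∈ 𝓝[A] (P'.c.f (u, t)) := by
  have ha0 : a ≤ 0 := by rcases ha with h | h <;> rw [h] <;> norm_num
  have hxO : x ∈ P.O := mem_of_mem_nhdsWithin (hDA hx) hO
  have hxQ : x ∈ P.Q := P.memQ hxO hx
  obtain ⟨V, hV, hVo, hVx⟩ : ∃ V : Set E, V ∩ A ⊆ P.O ∩ W ∧ IsOpen V ∧ x ∈ V := by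
    obtain ⟨V, h1, h2, h3⟩ := mem_nhdsWithin.1 (inter_mem hO (mem_nhdsWithin_of_mem_nhds hW))
    exact ⟨V, h3, h1, h2⟩
  have hc : ContinuousWithinAt P.c.f (P.Q ×ˢ Icc a 1) (x, 0) :=
    P.c.pf.1 _ ⟨hxQ, ha0, zero_le_one⟩
  have h1 : P.c.f ⁻¹' V ∈ 𝓝[P.Q ×ˢ Icc a 1] (x, 0) := by
    apply hc
    rw [P.zero x hxQ]; exact hVo.mem_nhds hVx
  obtain ⟨ε, hε, hεV⟩ := Metric.mem_nhdsWithin_iff.1 h1
  obtain ⟨δ, hδ, hδV⟩ := Metric.isOpen_iff.1 hVo x hVx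
  set r := min (min (ε / 2) δ) 1 with hr
  have r0 : 0 < r := lt_min (lt_min (by linarith) hδ) one_pos
  have r1 : r ≤ 1 := min_le_right _ _
  have rε : r < ε := lt_of_le_of_lt ((min_le_left _ _).trans (min_le_left _ _)) (by linarith)
  have rδ : r ≤ δ := (min_le_left _ _).trans (min_le_right _ _)
  have hs : ∀ t ∈ Icc a 1, r * t ∈ Icc a 1 := fun t ht => by
    obtain ⟨h1, h2⟩ := ht
    constructor <;> nlinarith
  have hab : ∀ t ∈ Icc a 1, |r * t| ≤ r := fun t ht => by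
    obtain ⟨h1, h2⟩ := ht
    rw [abs_le]
    rcases ha with h | h <;> rw [h] at h1 <;> constructor <;> nlinarith
  have hin : ∀ u ∈ P.Q, dist u x ≤ r → ∀ t ∈ Icc a 1, P.c.f (u, r * t) ∈ V := by
    intro u hu hd t ht
    apply hεV
    refine ⟨?_, hu, hs t ht⟩
    rw [mem_ball, Prod.dist_eq]
    refine max_lt (lt_of_le_of_lt hd rε) ?_
    rw [Real.dist_eq, sub_zero]
    exact lt_of_le_of_lt (hab t ht) rε
  refine ⟨r, r0, P.sc r0.ne' hs (Q' := P.Q ∩ closedBall x r) inter_subset_left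
    (P.cQ.inter_right isClosed_closedBall), ?_, fun y hy => hy.1, fun y => rfl, ?_⟩
  · intro y hy
    have h2 := hin _ hy.2.1.1 hy.2.1.2 _ hy.2.2
    rw [← mul_assoc, mul_inv_cancel₀ r0.ne', one_mul, P.fg hy.1] at h2
    exact (hV ⟨h2, P.OA hy.1⟩).2
  · intro u hu hd
    have huQ : u ∈ P.Q :=
      P.memQ (hV ⟨hδV (mem_ball.2 (lt_of_lt_of_le hd rδ)), hDA hu⟩).1 hu
    refine ⟨⟨huQ, mem_closedBall.2 hd.le⟩, fun t ht ht1 => ?_⟩
    show _ ∈ 𝓝[A] (P.c.f (u, r * t))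
    have hq : (u, r * t) ∈ P.Q ×ˢ Icc a 1 := ⟨huQ, hs t ht⟩
    have h2 : P.O ∈ 𝓝[A] (P.c.f (u, r * t)) :=
      mem_nhdsWithin.2 ⟨V, hVo, hin u huQ hd.le t ht, fun y hy => (hV hy).1⟩
    have h3 : ball x r ×ˢ ball (0:ℝ) r ∈ 𝓝 (P.c.g (P.c.f (u, r * t))) := by
      rw [P.c.li _ hq]
      refine (isOpen_ball.prod isOpen_ball).mem_nhds ⟨hd, ?_⟩
      rw [mem_ball_zero_iff, Real.norm_eq_abs, abs_mul, abs_of_pos r0]
      nlinarith
    have h4 := P.c.pg.1 _ (P.c.mf hq) h3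
    have h5 : P.c.g ⁻¹' (ball x r ×ˢ ball (0:ℝ) r) ∈ 𝓝[A] (P.c.f (u, r * t)) := by
      have : 𝓝[A] (P.c.f (u, r * t)) ≤ 𝓝[P.O] (P.c.f (u, r * t)) := nhdsWithin_le_of_mem h2
      exact this h4
    filter_upwards [h2, h5] with y hy hy'
    refine ⟨hy, ⟨P.g1 hy, ball_subset_closedBall hy'.1⟩, ?_⟩
    have h6 : |(P.c.g y).2| < r := by simpa [Real.norm_eq_abs] using hy'.2
    obtain ⟨h7, h8⟩ := abs_lt.1 h6
    have h9 := P.g2 hy
    have hri : 0 < r⁻¹ := inv_pos.2 r0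
    have hrr : r⁻¹ * r = 1 := inv_mul_cancel₀ r0.ne'
    constructor
    · rcases ha with h | h
      · have h10 : 0 ≤ (P.c.g y).2 := by linarith [h9.1]
        have := mul_nonneg hri.le h10
        linarith
      · nlinarith
    · nlinarith

end Pc

/-- extension of a PL equivalence by the identity -/
theorem ext_id {X X' K K' : Set F} (e : PLEquiv K K') (hK : IsClosed K) (hK' : IsClosed K')
    (hKX : K ⊆ X) (hKX' : K' ⊆ X') (hd : X \ K = X' \ K')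
    (h1 : ∀ p ∈ K, p ∈ closure (X \ K) → e.f p = p)
    (h2 : ∀ p ∈ K', p ∈ closure (X' \ K') → e.g p = p) :
    ∃ G : PLEquiv X X', EqOn G.f e.f K ∧ ∀ p ∈ X \ K, G.f p = p := by
  classical
  have key : ∀ {X K : Set F} {f : F → F}, PLOn f K → IsClosed K →
      (∀ p ∈ K, p ∈ closure (X \ K) → f p = p) → PLOn (fun p => if p ∈ K then f p else p) X := by
    intro X K f hf hK h
    refine (PLOn.union (L := closure (X \ K)) (hf.congr fun p hp => if_pos hp)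
      ((plOn_id _).congr fun p hp => ?_) hK isClosed_closure).mono fun p hp => ?_
    · by_cases hpK : p ∈ K
      · simp only [if_pos hpK]; exact h p hpK hp
      · simp only [if_neg hpK]
    · by_cases hpK : p ∈ K
      · exact Or.inl hpK
      · exact Or.inr (subset_closure ⟨hp, hpK⟩)
  refine ⟨⟨fun p => if p ∈ K then e.f p else p, fun p => if p ∈ K' then e.g p else p,
    key e.pf hK h1, key e.pg hK' h2, fun p hp => ?_, fun p hp => ?_, fun p hp => ?_,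
    fun p hp => ?_⟩, fun p hp => if_pos hp, fun p hp => if_neg hp.2⟩
  · by_cases hpK : p ∈ K
    · simp only [if_pos hpK]; exact hKX' (e.mf hpK)
    · simp only [if_neg hpK]; exact (hd.le ⟨hp, hpK⟩).1
  · by_cases hpK : p ∈ K'
    · simp only [if_pos hpK]; exact hKX (e.mg hpK)
    · simp only [if_neg hpK]; exact (hd.ge ⟨hp, hpK⟩).1
  · by_cases hpK : p ∈ K
    · simp only [if_pos hpK, if_pos (e.mf hpK)]; exact e.li p hpK
    · simp only [if_neg hpK, if_neg (hd.le ⟨hp, hpK⟩).2]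
  · by_cases hpK : p ∈ K'
    · simp only [if_pos hpK, if_pos (e.mg hpK)]; exact e.ri p hpK
    · simp only [if_neg hpK, if_neg (hd.ge ⟨hp, hpK⟩).2]

/-- `A` with an outer collar of variable depth `Λ` attached along `D` -/
def XX (A D : Set E) (Λ : E → ℝ) : Set (E × ℝ) :=
  {p | (p.1 ∈ A ∧ p.2 = 0) ∨ (p.1 ∈ D ∧ -Λ p.1 ≤ p.2 ∧ p.2 ≤ 0)}

/-- the parameter domain -/
def dom (Q : Set E) (Λ : E → ℝ) : Set (E × ℝ) := {q | q.1 ∈ Q ∧ -Λ q.1 ≤ q.2 ∧ q.2 ≤ 1}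

theorem isCompact_dom {Q : Set E} (hQ : IsCompact Q) {Λ : E → ℝ} (hΛ : PLOn Λ univ)
    (h1 : ∀ x, Λ x ≤ 1) : IsCompact (dom Q Λ) := by
  have hc : Continuous Λ := continuousOn_univ.1 hΛ.1
  refine (hQ.prod (isCompact_Icc (a := (-1:ℝ)) (b := 1))).of_isClosed_subset ?_ ?_
  · refine (hQ.isClosed.preimage continuous_fst).inter (IsClosed.inter ?_ ?_)
    · exact isClosed_le (by fun_prop) continuous_snd
    · exact isClosed_le continuous_snd continuous_const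
  · intro q hq
    exact ⟨hq.1, by linarith [hq.2.1, h1 q.1], hq.2.2⟩

section step

variable {A N D : Set E} (P : Pc 0 A N D)

/-- the chart of `XX` -/
noncomputable def ch {Λ : E → ℝ} (h0 : ∀ x, 0 ≤ Λ x) :
    PLEquiv (dom P.Q Λ) {p | p ∈ XX A D Λ ∧ p.1 ∈ P.O} where
  f := fun q => (P.c.f (q.1, max q.2 0), min q.2 0)
  g := fun p => ((P.c.g p.1).1, (P.c.g p.1).2 + p.2)
  pf := pl_pair (P.c.pf.comp (pl_pair (pl_fst' _) (pl_max (pl_snd' _) (plOn_const _ _)))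
      fun q hq => ⟨hq.1, le_max_right _ _, max_le hq.2.2 zero_le_one⟩)
    (pl_min (pl_snd' _) (plOn_const _ _))
  pg := by
    have : PLOn (fun p : E × ℝ => P.c.g p.1) {p | p ∈ XX A D Λ ∧ p.1 ∈ P.O} :=
      P.c.pg.comp (pl_fst' _) fun p hp => hp.2
    exact pl_pair (pl_fst this) (pl_add (pl_snd this) (pl_snd' _))
  mf := fun q hq => by
    have h1 : (q.1, max q.2 0) ∈ P.Q ×ˢ Icc (0:ℝ) 1 :=
      ⟨hq.1, le_max_right _ _, max_le hq.2.2 zero_le_one⟩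
    refine ⟨?_, P.c.mf h1⟩
    rcases le_total q.2 0 with h | h
    · right
      simp only [max_eq_right h, min_eq_left h, P.zero _ hq.1]
      exact ⟨P.QD hq.1, hq.2.1, h⟩
    · left
      exact ⟨P.OA (P.c.mf h1), min_eq_right h⟩
  mg := fun p hp => by
    refine ⟨P.g1 hp.2, ?_⟩
    have h2 := P.g2 hp.2
    rcases hp.1 with h | h
    · simp only [h.2, add_zero]
      exact ⟨by linarith [h0 (P.c.g p.1).1, h2.1], h2.2⟩
    · simp only [P.g2_zero hp.2 h.1, P.g1_self hp.2 h.1, zero_add]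
      exact ⟨h.2.1, by linarith [h.2.2]⟩
  li := fun q hq => by
    have h1 : (q.1, max q.2 0) ∈ P.Q ×ˢ Icc (0:ℝ) 1 :=
      ⟨hq.1, le_max_right _ _, max_le hq.2.2 zero_le_one⟩
    simp only [P.c.li _ h1, max_add_min, add_zero]
  ri := fun p hp => by
    have h2 := P.g2 hp.2
    rcases hp.1 with h | h
    · simp only [h.2, add_zero, max_eq_left h2.1, min_eq_right h2.1, P.fg hp.2]
      exact Prod.ext rfl h.2.symm
    · simp only [P.g2_zero hp.2 h.1, P.g1_self hp.2 h.1, zero_add, max_eq_right h.2.2,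
        min_eq_left h.2.2, P.zero _ (P.memQ hp.2 h.1)]

/-- the push -/
noncomputable def push (Q : Set E) {Λ Λ' : E → ℝ} (hΛ : PLOn Λ univ) (hΛ' : PLOn Λ' univ)
    (h0 : ∀ x, 0 ≤ Λ x) (hle : ∀ x, Λ x ≤ Λ' x) (h1 : ∀ x, Λ' x ≤ 1) :
    PLEquiv (dom Q Λ) (dom Q Λ') where
  f := fun q => (q.1, max (q.2 - (Λ' q.1 - Λ q.1)) (2 * q.2 - 1))
  g := fun q => (q.1, min (q.2 + (Λ' q.1 - Λ q.1)) ((1 / 2) * q.2 + 1 / 2))
  pf := pl_pair (pl_fst' _) (pl_max (pl_sub (pl_snd' _) (pl_sub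
      (hΛ'.comp (pl_fst' _) (mapsTo_univ _ _)) (hΛ.comp (pl_fst' _) (mapsTo_univ _ _))))
    (pl_sub (pl_mul 2 (pl_snd' _)) (plOn_const _ _)))
  pg := pl_pair (pl_fst' _) (pl_min (pl_add (pl_snd' _) (pl_sub
      (hΛ'.comp (pl_fst' _) (mapsTo_univ _ _)) (hΛ.comp (pl_fst' _) (mapsTo_univ _ _))))
    (pl_add (pl_mul (1 / 2) (pl_snd' _)) (plOn_const _ _)))
  mf := fun q hq => ⟨hq.1, le_max_of_le_left (by linarith [hq.2.1]),
    max_le (by linarith [hq.2.2, hle q.1]) (by linarith [hq.2.2])⟩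
  mg := fun q hq => ⟨hq.1, le_min (by linarith [hq.2.1])
    (by linarith [hq.2.1, h0 q.1, h1 q.1]), min_le_of_right_le (by linarith [hq.2.2])⟩
  li := fun q _ => by
    refine Prod.ext rfl ?_
    simp only
    rcases le_total (q.2 - (Λ' q.1 - Λ q.1)) (2 * q.2 - 1) with h | h
    · rw [max_eq_right h, min_eq_right (by linarith)]; ring
    · rw [max_eq_left h, min_eq_left (by linarith)]; ring
  ri := fun q _ => by
    refine Prod.ext rfl ?_
    simp only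
    rcases le_total (q.2 + (Λ' q.1 - Λ q.1)) ((1 / 2) * q.2 + 1 / 2) with h | h
    · rw [min_eq_left h, max_eq_left (by linarith)]; ring
    · rw [min_eq_right h, max_eq_right (by linarith)]; ring

theorem step (hDA : D ⊆ A) {Λ Λ' : E → ℝ} (hΛ : PLOn Λ univ) (hΛ' : PLOn Λ' univ)
    (h0 : ∀ x, 0 ≤ Λ x) (hle : ∀ x, Λ x ≤ Λ' x) (h1 : ∀ x, Λ' x ≤ 1)
    (good : ∀ u ∈ D, Λ u ≠ Λ' u → u ∈ P.Q ∧
      ∀ t ∈ Icc (0:ℝ) 1, |t| < 1 → P.O ∈ 𝓝[A] (P.c.f (u, t))) :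
    ∃ G : PLEquiv (XX A D Λ) (XX A D Λ'), (∀ x ∈ D, G.f (x, -Λ x) = (x, -Λ' x)) ∧
      ∀ p ∈ XX A D Λ, ((G.f p).1 ∈ N ↔ p.1 ∈ N) := by
  have h0' : ∀ x, 0 ≤ Λ' x := fun x => (h0 x).trans (hle x)
  have h1' : ∀ x, Λ x ≤ 1 := fun x => (hle x).trans (h1 x)
  have hcl : ∀ {Λ : E → ℝ} (h0 : ∀ x, 0 ≤ Λ x), PLOn Λ univ → (∀ x, Λ x ≤ 1) →
      IsClosed {p | p ∈ XX A D Λ ∧ p.1 ∈ P.O} := fun h0 hΛ h1 => by
    rw [← (ch P h0).image_eq]
    exact ((isCompact_dom P.cQ hΛ h1).image_of_continuousOn (ch P h0).pf.1).isClosed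
  have hfr : ∀ {L : E → ℝ} (h0 : ∀ x, 0 ≤ L x), ∀ p ∈ {p | p ∈ XX A D L ∧ p.1 ∈ P.O},
      p ∈ closure (XX A D L \ {p | p ∈ XX A D L ∧ p.1 ∈ P.O}) →
      Λ' (P.c.g p.1).1 - Λ (P.c.g p.1).1 = 0 ∨ (P.c.g p.1).2 + p.2 = 1 := by
    intro L h0 p hp hc
    by_contra hcon
    push Not at hcon
    have hq := (ch P h0).mg hp
    have h2 := P.g2 hp.2
    have hp2 : p.2 ≤ 0 := by
      rcases hp.1 with h | h
      · exact h.2.le
      · exact h.2.2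
    have h3 : (P.c.g p.1).2 < 1 := by
      rcases hp.1 with h | h
      · rw [h.2, add_zero] at hcon
        exact lt_of_le_of_ne h2.2 hcon.2
      · rw [P.g2_zero hp.2 h.1]; exact one_pos
    have h4 := (good _ (P.QD (P.g1 hp.2)) (fun e => hcon.1 (by rw [e, sub_self]))).2 _ h2
      (by rw [abs_of_nonneg h2.1]; exact h3)
    rw [P.fg hp.2] at h4
    obtain ⟨V, hVo, hVp, hV⟩ := mem_nhdsWithin.1 h4
    obtain ⟨q, hqV, hq1, hq2⟩ := _root_.mem_closure_iff.1 hc (Prod.fst ⁻¹' V)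
      (hVo.preimage continuous_fst) hVp
    refine hq2 ⟨hq1, hV ⟨hqV, ?_⟩⟩
    rcases hq1 with h | h
    · exact h.1
    · exact hDA h.1
  obtain ⟨G, hG1, hG2⟩ := ext_id (X := XX A D Λ) (X' := XX A D Λ')
    (((ch P h0).symm.trans (push P.Q hΛ hΛ' h0 hle h1)).trans (ch P h0'))
    (hcl h0 hΛ h1') (hcl h0' hΛ' h1) (fun _ h => h.1) (fun _ h => h.1)
    (by
      have key : ∀ {L L' : E → ℝ}, (∀ u ∈ D, u ∉ P.O → L u = L' u) →
          XX A D L \ {p | p ∈ XX A D L ∧ p.1 ∈ P.O} ⊆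
            XX A D L' \ {p | p ∈ XX A D L' ∧ p.1 ∈ P.O} := by
        intro L L' h p hp
        have hpO : p.1 ∉ P.O := fun h' => hp.2 ⟨hp.1, h'⟩
        refine ⟨?_, fun h' => hpO h'.2⟩
        rcases hp.1 with h' | h'
        · exact Or.inl h'
        · exact Or.inr ⟨h'.1, by rw [← h _ h'.1 hpO]; exact h'.2.1, h'.2.2⟩
      have h : ∀ u ∈ D, u ∉ P.O → Λ u = Λ' u := fun u hu huO => by
        by_contra hne
        exact huO (P.QO le_rfl (good u hu hne).1)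
      exact (key h).antisymm (key fun u hu huO => (h u hu huO).symm))
    (fun p hp hc => by
      have hq := (ch P h0).mg hp
      have e : (push P.Q hΛ hΛ' h0 hle h1).f ((ch P h0).g p) = (ch P h0).g p := by
        refine Prod.ext rfl ?_
        have h5 : (P.c.g p.1).2 + p.2 ≤ 1 := hq.2.2
        show max ((P.c.g p.1).2 + p.2 - (Λ' (P.c.g p.1).1 - Λ (P.c.g p.1).1))
          (2 * ((P.c.g p.1).2 + p.2) - 1) = (P.c.g p.1).2 + p.2
        rcases hfr h0 p hp hc with h | h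
        · rw [h, max_eq_left (by linarith)]; ring
        · rw [h, max_eq_right (by linarith [hle (P.c.g p.1).1])]; ring
      show (ch P h0').f ((push P.Q hΛ hΛ' h0 hle h1).f ((ch P h0).g p)) = p
      rw [e]
      exact (ch P h0).ri p hp)
    (fun p hp hc => by
      have hq := (ch P h0').mg hp
      have e : (push P.Q hΛ hΛ' h0 hle h1).g ((ch P h0').g p) = (ch P h0').g p := by
        refine Prod.ext rfl ?_
        have h5 : (P.c.g p.1).2 + p.2 ≤ 1 := hq.2.2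
        show min ((P.c.g p.1).2 + p.2 + (Λ' (P.c.g p.1).1 - Λ (P.c.g p.1).1))
          ((1 / 2) * ((P.c.g p.1).2 + p.2) + 1 / 2) = (P.c.g p.1).2 + p.2
        rcases hfr h0' p hp hc with h | h
        · rw [h, min_eq_left (by linarith)]; ring
        · rw [h, min_eq_right (by linarith [hle (P.c.g p.1).1])]; ring
      show (ch P h0).f ((push P.Q hΛ hΛ' h0 hle h1).g ((ch P h0').g p)) = p
      rw [e]
      exact (ch P h0').ri p hp)
  refine ⟨G, fun x hx => ?_, fun p hp => ?_⟩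
  · have hxX : (x, -Λ x) ∈ XX A D Λ := Or.inr ⟨hx, le_rfl, by linarith [h0 x]⟩
    by_cases hxO : x ∈ P.O
    · rw [hG1 ⟨hxX, hxO⟩]
      show (P.c.f ((P.c.g x).1, max (max ((P.c.g x).2 + -Λ x - (Λ' (P.c.g x).1 - Λ (P.c.g x).1))
          (2 * ((P.c.g x).2 + -Λ x) - 1)) 0),
        min (max ((P.c.g x).2 + -Λ x - (Λ' (P.c.g x).1 - Λ (P.c.g x).1))
          (2 * ((P.c.g x).2 + -Λ x) - 1)) 0) = _
      have e : max (0 + -Λ x - (Λ' x - Λ x)) (2 * (0 + -Λ x) - 1) = -Λ' x := by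
        rw [max_eq_left (by linarith [h0 x, h1 x])]; ring
      rw [P.g2_zero hxO hx, P.g1_self hxO hx, e, max_eq_right (by linarith [h0' x]),
        min_eq_left (by linarith [h0' x]), P.zero _ (P.memQ hxO hx)]
    · have e : Λ x = Λ' x := by
        by_contra hne
        exact hxO (P.QO le_rfl (good x hx hne).1)
      rw [hG2 _ ⟨hxX, fun h => hxO h.2⟩, e]
  · by_cases hpO : p.1 ∈ P.O
    · rw [hG1 ⟨hp, hpO⟩]
      have hq := (push P.Q hΛ hΛ' h0 hle h1).mf ((ch P h0).mg ⟨hp, hpO⟩)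
      have e1 := P.inN _ (P.g1 hpO) _ (P.g2 hpO)
      rw [P.fg hpO] at e1
      rw [e1]
      exact P.inN _ (P.g1 hpO) _ ⟨le_max_right _ _, max_le hq.2.2 zero_le_one⟩
    · rw [hG2 _ ⟨hp, fun h => hpO h.2⟩]

end step

/-- **COLLAR**, without the open set -/
theorem collar0 [FiniteDimensional ℝ E] {A N D : Set E} (hD : IsCompact D)
    (hDA : D ⊆ A) (hloc : ∀ x ∈ D, ∃ P : Pc 0 A N D, P.O ∈ 𝓝[A] x) :
    ∃ P : Pc 0 A N D, P.Q = D ∧ ∀ x ∈ D, P.O ∈ 𝓝[A] x := by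
  classical
  have h1 : ∀ x : D, ∃ r > 0, ∃ P : Pc 0 A N D, ∀ u ∈ D, dist u x < r → u ∈ P.Q ∧
      ∀ t ∈ Icc (0:ℝ) 1, |t| < 1 → P.O ∈ 𝓝[A] (P.c.f (u, t)) := by
    rintro ⟨x, hx⟩
    obtain ⟨P, hP⟩ := hloc x hx
    obtain ⟨r, hr, P', -, -, -, h⟩ := P.shrink (Or.inl rfl) hDA hx hP univ_mem
    exact ⟨r, hr, P', h⟩
  choose r hr P hP using h1
  choose μ μpl μ0 μs μ1 using fun x : D => exists_bump (x : E) (hr x)
  obtain ⟨T, hT⟩ := hD.elim_nhds_subcover' (fun x hx => {y | 1 ≤ μ ⟨x, hx⟩ y})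
    (fun x hx => μ1 ⟨x, hx⟩)
  let Λ : Finset D → E → ℝ := fun s y => min 1 (∑ x ∈ s, μ x y)
  have Λpl : ∀ s, PLOn (Λ s) univ := fun s =>
    pl_min (plOn_const _ _) (pl_sum s fun x _ => μpl x)
  have Λ0 : ∀ s y, 0 ≤ Λ s y := fun s y =>
    le_min zero_le_one (Finset.sum_nonneg fun x _ => μ0 x y)
  have ind : ∀ s : Finset D, ∃ G : PLEquiv (XX A D (Λ ∅)) (XX A D (Λ s)),
      (∀ x ∈ D, G.f (x, 0) = (x, -Λ s x)) ∧ ∀ p ∈ XX A D (Λ ∅), ((G.f p).1 ∈ N ↔ p.1 ∈ N) := by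
    intro s
    induction s using Finset.induction_on with
    | empty => exact ⟨PLEquiv.refl _, fun x _ => by simp [PLEquiv.refl, Λ], fun _ _ => Iff.rfl⟩
    | insert z s hz ih =>
      obtain ⟨G, hG1, hG2⟩ := ih
      obtain ⟨G', hG1', hG2'⟩ := step (P z) hDA (Λpl s) (Λpl (insert z s)) (Λ0 s)
        (fun y => min_le_min le_rfl (by rw [Finset.sum_insert hz]; linarith [μ0 z y]))
        (fun y => min_le_left _ _) (fun u hu hne => hP z u hu (by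
          by_contra hd
          apply hne
          have e : μ z u = 0 := by
            by_contra h
            exact hd (μs z u h)
          simp only [Λ, Finset.sum_insert hz, e, zero_add]))
      refine ⟨G.trans G', fun x hx => ?_, fun p hp => ?_⟩
      · show G'.f (G.f (x, 0)) = _
        rw [hG1 x hx, hG1' x hx]
      · exact (hG2' _ (G.mf hp)).trans (hG2 p hp)
  obtain ⟨G, hG1, hG2⟩ := ind T
  have Λ1 : ∀ x ∈ D, Λ T x = 1 := by
    intro x hx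
    obtain ⟨z, hz, hxz⟩ := mem_iUnion₂.1 (hT hx)
    apply min_eq_left
    exact le_trans hxz (Finset.single_le_sum (f := fun z => μ z x) (fun z _ => μ0 z x) hz)
  have hX0 : ∀ p ∈ XX A D (Λ ∅), p.1 ∈ A ∧ p = (p.1, 0) := by
    rintro p (h | h)
    · exact ⟨h.1, Prod.ext rfl h.2⟩
    · refine ⟨hDA h.1, Prod.ext rfl (le_antisymm h.2.2 ?_)⟩
      simpa [Λ] using h.2.1
  have hX0' : ∀ y ∈ A, (y, (0:ℝ)) ∈ XX A D (Λ ∅) := fun y hy => Or.inl ⟨hy, rfl⟩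
  have hX1 : ∀ q ∈ D ×ˢ Icc (0:ℝ) 1, (q.1, q.2 - 1) ∈ XX A D (Λ T) := fun q hq =>
    Or.inr ⟨hq.1, by rw [Λ1 _ hq.1]; linarith [hq.2.1], by linarith [hq.2.2]⟩
  have hfg : ∀ q ∈ D ×ˢ Icc (0:ℝ) 1, G.f ((G.g (q.1, q.2 - 1)).1, 0) = (q.1, q.2 - 1) :=
    fun q hq => by rw [← (hX0 _ (G.mg (hX1 q hq))).2, G.ri _ (hX1 q hq)]
  have hpl : PLOn (fun y : E => G.f (y, 0)) A :=
    G.pf.comp (pl_pair (plOn_id _) (plOn_const _ _)) hX0'
  refine ⟨⟨D, {y | y ∈ A ∧ (G.f (y, 0)).1 ∈ D},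
    ⟨fun q => (G.g (q.1, q.2 - 1)).1, fun y => ((G.f (y, 0)).1, (G.f (y, 0)).2 + 1),
      pl_fst (G.pg.comp (pl_pair (pl_fst' _) (pl_sub (pl_snd' _) (plOn_const _ _))) hX1),
      (pl_pair (pl_fst hpl) (pl_add (pl_snd hpl) (plOn_const _ _))).mono fun _ h => h.1,
      fun q hq => ⟨(hX0 _ (G.mg (hX1 q hq))).1, by rw [hfg q hq]; exact hq.1⟩,
      fun y hy => ⟨hy.2, ?_⟩, fun q hq => ?_, fun y hy => ?_⟩,
    hD, Subset.rfl, fun _ h => h.1, fun u hu => ?_, fun u hu t ht h => ?_, fun u hu t ht => ?_⟩,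
    rfl, fun x hx => ?_⟩
  · rcases G.mf (hX0' y hy.1) with h | h
    · simp only [h.2]; norm_num
    · have h2 := h.2.1
      rw [Λ1 _ h.1] at h2
      exact ⟨by linarith, by linarith [h.2.2]⟩
  · simp only [hfg q hq, sub_add_cancel]
  · simp only [add_sub_cancel_right, Prod.mk.eta, G.li _ (hX0' y hy.1)]
  · have h2 := hG1 u hu
    rw [Λ1 u hu] at h2
    simp only [zero_sub]
    rw [← h2, G.li _ (hX0' u (hDA hu))]
  · have h2 := hfg (u, t) ⟨hu, ht⟩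
    have h3 := hG1 _ h
    rw [Λ1 _ h] at h3
    have h4 := congrArg Prod.snd (h2.symm.trans h3)
    simp only at h4
    linarith
  · have h2 := hG2 _ (G.mg (hX1 (u, t) ⟨hu, ht⟩))
    rw [G.ri _ (hX1 (u, t) ⟨hu, ht⟩)] at h2
    exact h2.symm
  · have h2 : (fun y : E => (G.f (y, 0)).2) ⁻¹' Iio 0 ∈ 𝓝[A] x := by
      apply (pl_snd hpl).1 x (hDA hx)
      simp only [hG1 x hx, Λ1 x hx]
      exact Iio_mem_nhds (by norm_num)
    filter_upwards [h2, self_mem_nhdsWithin] with y hy hyA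
    refine ⟨hyA, ?_⟩
    rcases G.mf (hX0' y hyA) with h | h
    · exact absurd h.2 (ne_of_lt hy)
    · exact h.1

/-- **COLLAR**: local collars give a collar, inside any open set -/
theorem collar [FiniteDimensional ℝ E] {A N D U : Set E} (hD : IsCompact D)
    (hDA : D ⊆ A) (hU : IsOpen U) (hDU : D ⊆ U)
    (hloc : ∀ x ∈ D, ∃ P : Pc 0 A N D, P.O ∈ 𝓝[A] x) :
    ∃ P : Pc 0 A N D, P.Q = D ∧ P.O ⊆ U ∧ ∀ x ∈ D, P.O ∈ 𝓝[A] x := by
  obtain ⟨P, h1, h2⟩ := collar0 (A := A ∩ U) (N := N) hD (subset_inter hDA hDU) (fun x hx => by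
    obtain ⟨P, hP⟩ := hloc x hx
    obtain ⟨r, hr, P', h1, -, -, h⟩ := P.shrink (Or.inl rfl) hDA hx hP (hU.mem_nhds (hDU hx))
    obtain ⟨h3, h4⟩ := h x hx (by simpa using hr)
    have h5 := h4 0 ⟨le_rfl, zero_le_one⟩ (by simp)
    rw [P'.zero x h3] at h5
    exact ⟨P'.amb (subset_inter P'.OA h1), nhdsWithin_mono _ inter_subset_left h5⟩)
  refine ⟨P.amb (P.OA.trans inter_subset_left), h1, P.OA.trans inter_subset_right,
    fun x hx => ?_⟩
  have := h2 x hx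
  rwa [nhdsWithin_inter_of_mem' (mem_nhdsWithin_of_mem_nhds (hU.mem_nhds (hDU hx)))] at this

end Crest.Agent.X212.Thk1
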