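import Crest.Agent.X212.Thk1.Col
import Crest.Agent.R096.Cb1_609
import Crest.Agent.R096.Coh2_184

/-!
# X212 / T layer / THICK (helper1), part 2: bicollars and sides

`bicollar`: local bicollars oriented by a side predicate `S` give one bicollar.
`sides`: such a predicate exists when `ℤ/2` cocycles on `D` are trivial.
-/

set_option autoImplicit false

open Set Metric Topology Filter

namespace Crest.Agent.X212.Thk1

open Crest.Agent.R096 Crest.Agent.R096.Ce_537 Crest.Agent.R096.Coh_184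

section bic

variable {E : Type*} [NormedAddCommGroup E] [NormedSpace ℝ E] {M N D : Set E}

/-- one half of a bicollar -/
theorem half (P : Pc (-1) M N D) (hDM : D ⊆ M) {x : E} (hx : x ∈ D) (hO : P.O ∈ 𝓝[M] x)
    {A : Set E} (hAM : A ⊆ M) (hDA : D ⊆ A) {ε : ℝ} (hε : ε = 1 ∨ ε = -1)
    (h : ∀ᶠ y in 𝓝[M \ D] x, (y ∈ A ↔ 0 < ε * (P.c.g y).2)) :
    ∃ P' : Pc 0 A N D, P'.O ∈ 𝓝[A] x := by
  obtain ⟨r, hr, P₁, h1, -, h3, h4⟩ := P.shrink (Or.inr rfl) hDM hx hO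
    (eventually_nhdsWithin_iff.1 h)
  obtain ⟨h5, h6⟩ := h4 x hx (by simpa using hr)
  have h7 := h6 0 ⟨by norm_num, zero_le_one⟩ (by simp)
  rw [P₁.zero x h5] at h7
  have hε0 : ε ≠ 0 := by rcases hε with h | h <;> rw [h] <;> norm_num
  have hεi : ε⁻¹ = ε := by rcases hε with h | h <;> rw [h] <;> norm_num
  have hri : 0 < r⁻¹ := inv_pos.2 hr
  have hs : ∀ t ∈ Icc (0:ℝ) 1, ε * t ∈ Icc (-1:ℝ) 1 := fun t ht => by
    obtain ⟨h1, h2⟩ := ht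
    rcases hε with h | h <;> rw [h] <;> constructor <;> linarith
  have key : ∀ y ∈ P₁.O, y ∉ D → (y ∈ A ↔ 0 < ε * (P₁.c.g y).2) := fun y hy hyD => by
    rw [h1 hy ⟨P₁.OA hy, hyD⟩, h3, mul_left_comm]
    exact (mul_pos_iff_of_pos_left hri).symm
  refine ⟨(P₁.sc hε0 hs Subset.rfl P₁.cQ).amb fun y hy => ?_, ?_⟩
  · by_cases hyD : y ∈ D
    · exact hDA hyD
    · rw [key y hy.1 hyD]
      have h8 := hy.2.2.1
      rw [hεi] at h8
      exact lt_of_le_of_ne h8 fun e => hyD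
        (P₁.memD hy.1 ((mul_eq_zero.1 e.symm).resolve_left hε0))
  · filter_upwards [nhdsWithin_mono _ hAM h7, self_mem_nhdsWithin] with y hy hyA
    refine ⟨hy, P₁.g1 hy, ?_⟩
    rw [hεi]
    have h8 := P₁.g2 hy
    constructor
    · by_cases hyD : y ∈ D
      · rw [P₁.g2_zero hy hyD, mul_zero]
      · exact ((key y hy hyD).1 hyA).le
    · rcases hε with h | h <;> rw [h] <;> linarith [h8.1, h8.2]

/-- **BICOLLAR** -/
theorem bicollar [FiniteDimensional ℝ E] {U : Set E} (hD : IsCompact D)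
    (hDM : D ⊆ M) (hU : IsOpen U) (hDU : D ⊆ U) (S : E → Prop)
    (hloc : ∀ x ∈ D, ∃ P : Pc (-1) M N D, P.O ∈ 𝓝[M] x ∧
      ∀ᶠ y in 𝓝[M \ D] x, (S y ↔ 0 < (P.c.g y).2)) :
    ∃ P : Pc (-1) M N D, P.Q = D ∧ P.O ⊆ U ∧ (∀ x ∈ D, P.O ∈ 𝓝[M] x) ∧
      ∀ y ∈ P.O, y ∉ D → (S y ↔ 0 < (P.c.g y).2) := by
  obtain ⟨P₁, a1, a2, a3⟩ := collar (A := {y | y ∈ M ∧ (y ∈ D ∨ S y)}) (N := N) hD
    (fun y hy => ⟨hDM hy, Or.inl hy⟩) hU hDU (fun x hx => by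
      obtain ⟨P, h1, h2⟩ := hloc x hx
      refine half P hDM hx h1 (fun _ h => h.1) (fun y hy => ⟨hDM hy, Or.inl hy⟩)
        (Or.inl rfl) ?_
      filter_upwards [h2, self_mem_nhdsWithin] with y hy hy'
      rw [one_mul, ← hy]
      exact ⟨fun h => h.2.resolve_left hy'.2, fun h => ⟨hy'.1, Or.inr h⟩⟩)
  obtain ⟨P₂, b1, b2, b3⟩ := collar (A := {y | y ∈ M ∧ (y ∈ D ∨ ¬ S y)}) (N := N) hD
    (fun y hy => ⟨hDM hy, Or.inl hy⟩) hU hDU (fun x hx => by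
      obtain ⟨P, h1, h2⟩ := hloc x hx
      refine half P hDM hx h1 (fun _ h => h.1) (fun y hy => ⟨hDM hy, Or.inl hy⟩)
        (Or.inr rfl) ?_
      filter_upwards [h2, self_mem_nhdsWithin, nhdsWithin_mono _ sdiff_subset h1]
        with y hy hy' hyO
      have h3 : (P.c.g y).2 ≠ 0 := fun e => hy'.2 (P.memD hyO e)
      constructor
      · intro h
        have h4 := h.2.resolve_left hy'.2
        rw [hy, not_lt] at h4
        have := lt_of_le_of_ne h4 h3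
        linarith
      · intro h
        refine ⟨hy'.1, Or.inr ?_⟩
        rw [hy]; linarith)
  have hint : ∀ y ∈ P₁.O, y ∈ P₂.O → y ∈ D := fun y h1 h2 => by
    by_contra hy
    exact ((P₂.OA h2).2.resolve_left hy) ((P₁.OA h1).2.resolve_left hy)
  let fl : PLEquiv (P₂.Q ×ˢ Icc (-1:ℝ) 0) (P₂.Q ×ˢ Icc (0:ℝ) 1) :=
    ⟨fun q => (q.1, -q.2), fun q => (q.1, -q.2), pl_pair (pl_fst' _) (pl_neg (pl_snd' _)),
      pl_pair (pl_fst' _) (pl_neg (pl_snd' _)),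
      fun q hq => ⟨hq.1, by linarith [hq.2.2], by linarith [hq.2.1]⟩,
      fun q hq => ⟨hq.1, by linarith [hq.2.2], by linarith [hq.2.1]⟩,
      fun q _ => by simp, fun q _ => by simp⟩
  have c1 : IsClosed (P₁.Q ×ˢ Icc (0:ℝ) 1) := P₁.cQ.isClosed.prod isClosed_Icc
  have c2 : IsClosed (P₂.Q ×ˢ Icc (-1:ℝ) 0) := P₂.cQ.isClosed.prod isClosed_Icc
  have hf : EqOn P₁.c.f (fl.trans P₂.c).f (P₁.Q ×ˢ Icc (0:ℝ) 1 ∩ P₂.Q ×ˢ Icc (-1:ℝ) 0) := by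
    rintro ⟨u, t⟩ ⟨h1, h2⟩
    have : t = 0 := le_antisymm h2.2.2 h1.2.1
    subst this
    show P₁.c.f (u, 0) = P₂.c.f (u, -0)
    rw [neg_zero, P₁.zero u h1.1, P₂.zero u h2.1]
  have hg : EqOn P₁.c.g (fl.trans P₂.c).g (P₁.O ∩ P₂.O) := by
    rintro y ⟨h1, h2⟩
    have hy := hint y h1 h2
    show P₁.c.g y = ((P₂.c.g y).1, -(P₂.c.g y).2)
    rw [P₂.g1_self h2 hy, P₂.g2_zero h2 hy, neg_zero]
    exact Prod.ext (P₁.g1_self h1 hy) (P₁.g2_zero h1 hy)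
  set G := Cb_609.glue P₁.c (fl.trans P₂.c) c1 c2 P₁.cO.isClosed P₂.cO.isClosed hf hg with hG
  have f1 : ∀ u ∈ D, ∀ t ∈ Icc (0:ℝ) 1, G.f (u, t) = P₁.c.f (u, t) := fun u hu t ht =>
    Cb_609.glue_f₁ _ _ _ _ _ _ _ _ (show (u, t) ∈ P₁.Q ×ˢ Icc (0:ℝ) 1 from ⟨a1.ge hu, ht⟩)
  have f2 : ∀ u ∈ D, ∀ t ∈ Icc (-1:ℝ) 0, G.f (u, t) = P₂.c.f (u, -t) := fun u hu t ht =>
    Cb_609.glue_f₂ _ _ _ _ _ _ _ _ (show (u, t) ∈ P₂.Q ×ˢ Icc (-1:ℝ) 0 from ⟨b1.ge hu, ht⟩)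
  have g1 : ∀ y ∈ P₁.O, G.g y = P₁.c.g y := fun y hy => Cb_609.glue_g₁ _ _ _ _ _ _ _ _ hy
  have g2 : ∀ y ∈ P₂.O, G.g y = ((P₂.c.g y).1, -(P₂.c.g y).2) := fun y hy =>
    Cb_609.glue_g₂ _ _ _ _ _ _ _ _ hy
  have s1 : D ×ˢ Icc (-1:ℝ) 1 ⊆ P₁.Q ×ˢ Icc (0:ℝ) 1 ∪ P₂.Q ×ˢ Icc (-1:ℝ) 0 := fun q hq => by
    rcases le_total 0 q.2 with h | h
    · exact Or.inl ⟨a1.ge hq.1, h, hq.2.2⟩
    · exact Or.inr ⟨b1.ge hq.1, hq.2.1, h⟩
  have s2 : P₁.Q ×ˢ Icc (0:ℝ) 1 ∪ P₂.Q ×ˢ Icc (-1:ℝ) 0 ⊆ D ×ˢ Icc (-1:ℝ) 1 := by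
    rintro q (hq | hq)
    · exact ⟨a1.le hq.1, by linarith [hq.2.1], hq.2.2⟩
    · exact ⟨b1.le hq.1, hq.2.1, by linarith [hq.2.2]⟩
  have ng : ∀ t ∈ Icc (-1:ℝ) 0, -t ∈ Icc (0:ℝ) 1 := fun t ht =>
    ⟨by linarith [ht.2], by linarith [ht.1]⟩
  refine ⟨⟨D, P₁.O ∪ P₂.O, G.restr s1 Subset.rfl (fun q hq => G.mf (s1 hq))
    (fun y hy => s2 (G.mg hy)), hD, Subset.rfl, ?_, fun u hu => ?_, fun u hu t ht h => ?_,
    fun u hu t ht => ?_⟩, rfl, union_subset a2 b2, fun x hx => ?_, fun y hy hyD => ?_⟩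
  · rintro y (hy | hy)
    · exact (P₁.OA hy).1
    · exact (P₂.OA hy).1
  · exact (f1 u hu 0 ⟨le_rfl, zero_le_one⟩).trans (P₁.zero u (a1.ge hu))
  · change G.f (u, t) ∈ D at h
    rcases le_total 0 t with h0 | h0
    · rw [f1 u hu t ⟨h0, ht.2⟩] at h
      exact P₁.inD u (a1.ge hu) t ⟨h0, ht.2⟩ h
    · rw [f2 u hu t ⟨ht.1, h0⟩] at h
      exact neg_eq_zero.1 (P₂.inD u (b1.ge hu) _ (ng t ⟨ht.1, h0⟩) h)
  · change G.f (u, t) ∈ N ↔ _
    rcases le_total 0 t with h0 | h0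
    · rw [f1 u hu t ⟨h0, ht.2⟩]
      exact P₁.inN u (a1.ge hu) t ⟨h0, ht.2⟩
    · rw [f2 u hu t ⟨ht.1, h0⟩]
      exact P₂.inN u (b1.ge hu) _ (ng t ⟨ht.1, h0⟩)
  · have e : M ⊆ {y | y ∈ M ∧ (y ∈ D ∨ S y)} ∪ {y | y ∈ M ∧ (y ∈ D ∨ ¬ S y)} := by
      intro y hy
      by_cases h : S y
      · exact Or.inl ⟨hy, Or.inr h⟩
      · exact Or.inr ⟨hy, Or.inr h⟩
    change P₁.O ∪ P₂.O ∈ 𝓝[M] x
    apply nhdsWithin_mono _ e
    rw [nhdsWithin_union, mem_sup]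
    exact ⟨mem_of_superset (a3 x hx) subset_union_left,
      mem_of_superset (b3 x hx) subset_union_right⟩
  · change S y ↔ 0 < (G.g y).2
    rcases hy with hy | hy
    · rw [g1 y hy]
      exact iff_of_true ((P₁.OA hy).2.resolve_left hyD)
        (lt_of_le_of_ne (P₁.g2 hy).1 fun e => hyD (P₁.memD hy e.symm))
    · rw [g2 y hy]
      exact iff_of_false ((P₂.OA hy).2.resolve_left hyD) (by simpa using (P₂.g2 hy).1)

/-- both sides accumulate -/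
theorem freq (P : Pc (-1) M N D) (hDM : D ⊆ M) {x : E} (hx : x ∈ D) (hO : P.O ∈ 𝓝[M] x)
    {ε : ℝ} (hε : ε = 1 ∨ ε = -1) : ∃ᶠ y in 𝓝[M \ D] x, 0 < ε * (P.c.g y).2 := by
  have hxQ : x ∈ P.Q := P.memQ (mem_of_mem_nhdsWithin (hDM hx) hO) hx
  have hs : ∀ t ∈ Ioc (0:ℝ) 1, ε * t ∈ Icc (-1:ℝ) 1 ∧ 0 < ε * (ε * t) := fun t ht => by
    obtain ⟨h1, h2⟩ := ht
    rcases hε with h | h <;> rw [h] <;> refine ⟨⟨?_, ?_⟩, ?_⟩ <;> linarith
  have hI : Ioc (0:ℝ) 1 ∈ 𝓝[>] (0:ℝ) := Ioc_mem_nhdsGT one_pos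
  have h1 : Tendsto (fun t : ℝ => (x, ε * t)) (𝓝[>] 0) (𝓝[P.Q ×ˢ Icc (-1) 1] (x, 0)) := by
    apply tendsto_nhdsWithin_iff.2
    constructor
    · have : Continuous fun t : ℝ => (x, ε * t) := by fun_prop
      simpa using (this.tendsto 0).mono_left nhdsWithin_le_nhds
    · filter_upwards [hI] with t ht
      exact ⟨hxQ, (hs t ht).1⟩
  have h2 : Tendsto (fun t : ℝ => P.c.f (x, ε * t)) (𝓝[>] 0) (𝓝[M \ D] x) := by
    apply tendsto_nhdsWithin_iff.2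
    constructor
    · have := (P.c.pf.1 (x, 0) ⟨hxQ, by norm_num, zero_le_one⟩).tendsto.comp h1
      rwa [P.zero x hxQ] at this
    · filter_upwards [hI] with t ht
      refine ⟨P.OA (P.c.mf ⟨hxQ, (hs t ht).1⟩), fun h => ?_⟩
      have h3 := (hs t ht).2
      rw [P.inD x hxQ _ (hs t ht).1 h, mul_zero] at h3
      exact lt_irrefl _ h3
  refine h2.frequently (Eventually.frequently ?_)
  filter_upwards [hI] with t ht
  rw [P.c.li _ ⟨hxQ, (hs t ht).1⟩]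
  exact (hs t ht).2

/-- two bicollars at the same point agree or disagree -/
theorem dich (P P' : Pc (-1) M N D) (hDM : D ⊆ M) {x : E} (hx : x ∈ D) (hO : P.O ∈ 𝓝[M] x)
    (hO' : P'.O ∈ 𝓝[M] x)
    (hlc : ∀ W ∈ 𝓝 x, ∃ Q ⊆ D ∩ W, IsPreconnected Q ∧ Q ∈ 𝓝[D] x) :
    (∀ᶠ y in 𝓝[M \ D] x, 0 < (P.c.g y).2 * (P'.c.g y).2) ∨
      ∀ᶠ y in 𝓝[M \ D] x, 0 < -((P.c.g y).2 * (P'.c.g y).2) := by
  obtain ⟨r, hr, P₁, h1, -, h3, h4⟩ := P.shrink (Or.inr rfl) hDM hx hO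
    (eventually_nhdsWithin_iff.1 hO')
  obtain ⟨h5, h6⟩ := h4 x hx (by simpa using hr)
  have h7 := h6 0 ⟨by norm_num, zero_le_one⟩ (by simp)
  rw [P₁.zero x h5] at h7
  have hri : 0 < r⁻¹ := inv_pos.2 hr
  obtain ⟨Q, hQ, hQc, hQx⟩ := hlc (ball x r) (ball_mem_nhds x hr)
  have hQ1 : Q ⊆ P₁.Q := fun u hu => (h4 u (hQ hu).1 (hQ hu).2).1
  have sg : ∀ I : Set ℝ, I ⊆ Icc (-1) 1 → (0:ℝ) ∉ I → IsPreconnected I →
      (∀ y ∈ P₁.O, (P₁.c.g y).1 ∈ Q → (P₁.c.g y).2 ∈ I → 0 < (P'.c.g y).2) ∨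
      (∀ y ∈ P₁.O, (P₁.c.g y).1 ∈ Q → (P₁.c.g y).2 ∈ I → (P'.c.g y).2 < 0) := by
    intro I hI hI0 hIc
    have hsub : Q ×ˢ I ⊆ P₁.Q ×ˢ Icc (-1) 1 := prod_mono hQ1 hI
    have hm : MapsTo P₁.c.f (Q ×ˢ I) P'.O := fun q hq =>
      h1 (P₁.c.mf (hsub hq)) (P₁.OA (P₁.c.mf (hsub hq)))
    have hc : ContinuousOn (fun q => (P'.c.g (P₁.c.f q)).2) (Q ×ˢ I) :=
      (pl_snd (P'.c.pg.comp (P₁.c.pf.mono hsub) hm)).1
    have hne : ∀ q ∈ Q ×ˢ I, (P'.c.g (P₁.c.f q)).2 ≠ 0 := fun q hq e =>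
      hI0 (by rw [← P₁.inD q.1 (hQ1 hq.1) q.2 (hI hq.2) (P'.memD (hm hq) e)]; exact hq.2)
    rcases (hQc.prod hIc).mapsTo_Ioi_or_Iio hc hne with h | h
    · left
      intro y hy hy1 hy2
      have := h (show P₁.c.g y ∈ Q ×ˢ I from ⟨hy1, hy2⟩)
      simpa only [P₁.c.ri y hy, mem_Ioi, mem_Iio] using this
    · right
      intro y hy hy1 hy2
      have := h (show P₁.c.g y ∈ Q ×ˢ I from ⟨hy1, hy2⟩)
      simpa only [P₁.c.ri y hy, mem_Ioi, mem_Iio] using this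
  have hxO : x ∈ P₁.O := P₁.QO (by norm_num) h5
  have hev : ∀ᶠ y in 𝓝[M \ D] x, y ∈ P₁.O ∧ (P₁.c.g y).1 ∈ Q ∧
      ((P₁.c.g y).2 ∈ Ioc (0:ℝ) 1 ∧ 0 < (P.c.g y).2 ∨
        (P₁.c.g y).2 ∈ Ico (-1:ℝ) 0 ∧ (P.c.g y).2 < 0) := by
    have t1 : Tendsto (fun y => (P₁.c.g y).1) (𝓝[P₁.O] x) (𝓝[D] x) := by
      have := ((pl_fst P₁.c.pg).1 x hxO).tendsto_nhdsWithin
        (t := D) fun y hy => P₁.QD (P₁.g1 hy)
      rwa [P₁.g1_self hxO hx] at this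
    have t2 : 𝓝[M \ D] x ≤ 𝓝[P₁.O] x :=
      nhdsWithin_le_of_mem (nhdsWithin_mono _ sdiff_subset h7)
    filter_upwards [nhdsWithin_mono _ sdiff_subset h7, t2 (t1 hQx), self_mem_nhdsWithin]
      with y hy hy1 hy2
    refine ⟨hy, hy1, ?_⟩
    have h8 := P₁.g2 hy
    rcases lt_or_gt_of_ne (fun e => hy2.2 (P₁.memD hy e) : (P₁.c.g y).2 ≠ 0) with h | h
    · refine Or.inr ⟨⟨h8.1, h⟩, ?_⟩
      rw [h3] at h
      exact neg_of_mul_neg_right h hri.le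
    · refine Or.inl ⟨⟨h, h8.2⟩, ?_⟩
      rw [h3] at h
      exact (mul_pos_iff_of_pos_left hri).1 h
  have sp := sg (Ioc 0 1) (fun t ht => ⟨by linarith [ht.1], ht.2⟩) (by simp) isPreconnected_Ioc
  have sm := sg (Ico (-1) 0) (fun t ht => ⟨ht.1, by linarith [ht.2]⟩) (by simp)
    isPreconnected_Ico
  rcases sp with sp | sp <;> rcases sm with sm | sm
  · exfalso
    refine (freq P' hDM hx hO' (Or.inr rfl)) ?_
    filter_upwards [hev] with y hy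
    rcases hy.2.2 with h | h
    · linarith [sp y hy.1 hy.2.1 h.1]
    · linarith [sm y hy.1 hy.2.1 h.1]
  · left
    filter_upwards [hev] with y hy
    rcases hy.2.2 with h | h
    · exact mul_pos h.2 (sp y hy.1 hy.2.1 h.1)
    · exact mul_pos_of_neg_of_neg h.2 (sm y hy.1 hy.2.1 h.1)
  · right
    filter_upwards [hev] with y hy
    rcases hy.2.2 with h | h
    · exact neg_pos.2 (mul_neg_of_pos_of_neg h.2 (sp y hy.1 hy.2.1 h.1))
    · exact neg_pos.2 (mul_neg_of_neg_of_pos h.2 (sm y hy.1 hy.2.1 h.1))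
  · exfalso
    refine (freq P' hDM hx hO' (Or.inl rfl)) ?_
    filter_upwards [hev] with y hy
    rcases hy.2.2 with h | h
    · linarith [sp y hy.1 hy.2.1 h.1]
    · linarith [sm y hy.1 hy.2.1 h.1]

end bic

/-- the sign character -/
noncomputable def sg (a : ZMod 2) : ℝ := if a = 0 then 1 else -1

theorem zm (a : ZMod 2) : a = 0 ∨ a = 1 := by revert a; decide

theorem sg_zero : sg 0 = 1 := if_pos rfl

theorem sg_one : sg 1 = -1 := if_neg (by decide)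

theorem sg_cases (a : ZMod 2) : sg a = 1 ∨ sg a = -1 := by
  rcases zm a with rfl | rfl
  · exact Or.inl sg_zero
  · exact Or.inr sg_one

theorem sg_add (a b : ZMod 2) : sg (a + b) = sg a * sg b := by
  have h : (1 + 1 : ZMod 2) = 0 := by decide
  rcases zm a with rfl | rfl <;> rcases zm b with rfl | rfl <;> simp [sg_zero, sg_one, h]

theorem sg_sq (a : ZMod 2) : sg a * sg a = 1 := by
  rcases sg_cases a with h | h <;> rw [h] <;> norm_num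

theorem sg_eq {a b : ZMod 2} {t : ℝ} (ha : 0 < sg a * t) (hb : 0 < sg b * t) : a = b := by
  rcases zm a with rfl | rfl <;> rcases zm b with rfl | rfl <;>
    simp only [sg_zero, sg_one] at ha hb <;> first | rfl | linarith

/-- **SIDES** -/
theorem sides {E : Type} [NormedAddCommGroup E] [NormedSpace ℝ E] {M N D : Set E}
    (hD : IsCompact D) (hDM : D ⊆ M) (hT : ∀ (ι : Type) [Finite ι], TrivAll ι (ZMod 2) D)
    (hlc : ∀ x ∈ D, ∀ W ∈ 𝓝 x, ∃ Q ⊆ D ∩ W, IsPreconnected Q ∧ Q ∈ 𝓝[D] x)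
    (hloc : ∀ x ∈ D, ∃ P : Pc (-1) M N D, P.O ∈ 𝓝[M] x) :
    ∃ S : E → Prop, ∀ x ∈ D, ∃ P : Pc (-1) M N D, P.O ∈ 𝓝[M] x ∧
      ∀ᶠ y in 𝓝[M \ D] x, (S y ↔ 0 < (P.c.g y).2) := by
  classical
  rcases D.eq_empty_or_nonempty with rfl | hne
  · exact ⟨fun _ => True, fun x hx => hx.elim⟩
  have h1 : ∀ x : D, ∃ r > 0, ∃ P : Pc (-1) M N D, ∀ u ∈ D, dist u x < r → P.O ∈ 𝓝[M] u := by
    rintro ⟨x, hx⟩
    obtain ⟨P, hP⟩ := hloc x hx
    obtain ⟨r, hr, P', -, -, -, h⟩ := P.shrink (Or.inr rfl) hDM hx hP univ_mem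
    refine ⟨r, hr, P', fun u hu hd => ?_⟩
    have := (h u hu hd).2 0 ⟨by norm_num, zero_le_one⟩ (by simp)
    rwa [P'.zero u (h u hu hd).1] at this
  choose r hr P hP using h1
  obtain ⟨T, hT'⟩ := hD.elim_nhds_subcover' (fun x hx => ball x (r ⟨x, hx⟩ / 2))
    (fun x hx => ball_mem_nhds _ (half_pos (hr _)))
  let C : T → Set E := fun i => closedBall (i.1 : E) (r i.1 / 2)
  have hC : ∀ i : T, ∀ x ∈ C i, x ∈ D → (P i.1).O ∈ 𝓝[M] x := fun i x hx hxD =>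
    hP i.1 x hxD (lt_of_le_of_lt (mem_closedBall.1 hx) (half_lt_self (hr _)))
  have hcov : ∀ x ∈ D, ∃ i, x ∈ C i := fun x hx => by
    obtain ⟨z, hz, hxz⟩ := mem_iUnion₂.1 (hT' hx)
    exact ⟨⟨z, hz⟩, ball_subset_closedBall hxz⟩
  let h : T → E → ℝ := fun i y => ((P i.1).c.g y).2
  let Rel : T → T → E → ZMod 2 → Prop := fun i j x a =>
    ∀ᶠ y in 𝓝[M \ D] x, 0 < sg a * (h i y * h j y)
  let d : T → T → E → ZMod 2 := fun i j x => if Rel i j x 0 then 0 else 1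
  have hd : ∀ i j x, x ∈ C i → x ∈ C j → x ∈ D → Rel i j x (d i j x) := by
    intro i j x hi hj hx
    by_cases h0 : Rel i j x 0
    · simp only [d, if_pos h0]; exact h0
    · simp only [d, if_neg h0]
      rcases dich (P i.1) (P j.1) hDM hx (hC i x hi hx) (hC j x hj hx) (hlc x hx) with h2 | h2
      · exact absurd (by simpa only [Rel, sg_zero, one_mul] using h2) h0
      · simpa only [Rel, sg_one, neg_one_mul] using h2
  have hu : ∀ i j x a b, x ∈ D → Rel i j x a → Rel i j x b → a = b := by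
    intro i j x a b hx ha hb
    obtain ⟨k, hk⟩ := hcov x hx
    obtain ⟨y, -, hy⟩ := ((freq (P k.1) hDM hx (hC k x hk hx) (Or.inl rfl)).and_eventually
      (ha.and hb)).exists
    exact sg_eq hy.1 hy.2
  have hcoc : Coc C d D := by
    refine ⟨fun i => isClosed_closedBall, fun x hx => mem_iUnion.2 (hcov x hx),
      fun i j x hx => ?_, fun i j k x hi hj hk hx => ?_⟩
    · have h2 := eventually_nhds_nhdsWithin.2 (hd i j x hx.1.1 hx.1.2 hx.2)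
      filter_upwards [nhdsWithin_le_nhds h2, self_mem_nhdsWithin] with y hy hy'
      exact hu i j y _ _ hy'.2 (hd i j y hy'.1.1 hy'.1.2 hy'.2) hy
    · refine hu i k x _ _ hx ?_ (hd i k x hi hk hx)
      filter_upwards [hd i j x hi hj hx, hd j k x hj hk hx] with y h2 h3
      have h4 := mul_pos h2 h3
      have h5 : h j y ≠ 0 := fun e => by rw [e] at h2; simp at h2
      have h6 : 0 < h j y * h j y := mul_self_pos.2 h5
      rw [sg_add]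
      refine (mul_pos_iff_of_pos_left h6).1 ?_
      convert h4 using 1
      ring
  obtain ⟨χ, hχ1, hχ2⟩ := hT T C d hcoc
  have hn : ∀ y : E, ∃ z ∈ D, ∀ w ∈ D, dist z y ≤ dist w y := fun y => by
    obtain ⟨z, hz, hm⟩ := hD.exists_isMinOn hne (f := fun w => dist w y) (by fun_prop)
    exact ⟨z, hz, fun w hw => hm hw⟩
  choose n hn1 hn2 using hn
  choose idx hidx using hcov
  refine ⟨fun y => 0 < sg (χ (idx _ (hn1 y)) (n y)) * h (idx _ (hn1 y)) y, fun x hx => ?_⟩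
  set i := idx x hx with hi
  have hxi : x ∈ C i := hidx x hx
  have hρ : sg (χ i x) ≠ 0 := by rcases sg_cases (χ i x) with e | e <;> rw [e] <;> norm_num
  have hρi : (sg (χ i x))⁻¹ = sg (χ i x) := by
    rcases sg_cases (χ i x) with e | e <;> rw [e] <;> norm_num
  have hs : ∀ t ∈ Icc (-1:ℝ) 1, sg (χ i x) * t ∈ Icc (-1:ℝ) 1 := fun t ht => by
    obtain ⟨h1, h2⟩ := ht
    rcases sg_cases (χ i x) with e | e <;> rw [e] <;> constructor <;> linarith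
  refine ⟨(P i.1).sc hρ hs Subset.rfl (P i.1).cQ, ?_, ?_⟩
  · filter_upwards [hC i x hxi hx] with y hy
    refine ⟨hy, (P i.1).g1 hy, ?_⟩
    rw [hρi]; exact hs _ ((P i.1).g2 hy)
  · have e1 : ∀ᶠ z in 𝓝[D] x, ∀ j, z ∈ C j → x ∈ C j ∧ χ j z = χ j x := by
      rw [eventually_all]
      intro j
      by_cases hj : x ∈ C j
      · have := eventually_nhdsWithin_iff.1 (hχ1 j x ⟨hj, hx⟩)
        filter_upwards [nhdsWithin_le_nhds this, self_mem_nhdsWithin] with z hz hzD hzj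
        exact ⟨hj, hz ⟨hzj, hzD⟩⟩
      · have : (C j)ᶜ ∈ 𝓝 x := isClosed_closedBall.isOpen_compl.mem_nhds hj
        filter_upwards [nhdsWithin_le_nhds this] with z hz hzj
        exact absurd hzj hz
    have e2 : Tendsto n (𝓝[M \ D] x) (𝓝[D] x) := by
      refine tendsto_nhdsWithin_iff.2 ⟨?_, Eventually.of_forall hn1⟩
      refine Tendsto.mono_left ?_ nhdsWithin_le_nhds
      rw [Metric.tendsto_nhds_nhds]
      intro ε hε
      refine ⟨ε / 2, half_pos hε, fun y hy => ?_⟩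
      have h2 := hn2 y x hx
      rw [dist_comm x y] at h2
      linarith [dist_triangle (n y) y x]
    have e3 : ∀ᶠ y in 𝓝[M \ D] x, ∀ j, x ∈ C j → 0 < sg (d i j x) * (h i y * h j y) := by
      rw [eventually_all]
      intro j
      by_cases hj : x ∈ C j
      · filter_upwards [hd i j x hxi hj hx] with y hy _
        exact hy
      · exact Eventually.of_forall fun y hy => absurd hy hj
    filter_upwards [e2.eventually e1, e3] with y hy1 hy2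
    obtain ⟨h2, h3⟩ := hy1 _ (hidx _ (hn1 y))
    set j := idx _ (hn1 y)
    have h4 := hy2 j h2
    have h5 : χ i x = d i j x + χ j x := by rw [← hχ2 i j x hxi h2 hx]; ring
    show 0 < sg (χ j (n y)) * h j y ↔ 0 < (sg (χ i x))⁻¹ * h i y
    rw [h3, hρi]
    apply pos_iff_pos_of_mul_pos
    rw [h5, sg_add]
    have e : sg (χ j x) * h j y * (sg (d i j x) * sg (χ j x) * h i y) =
        sg (d i j x) * (h i y * h j y) := by
      linear_combination (sg (d i j x) * h i y * h j y) * sg_sq (χ j x)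
    rw [e]; exact h4

end Crest.Agent.X212.Thk1
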