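import Crest.Agent.X212.Thk1.Disc
import Crest.Agent.X212.Geo46.Main
import Crest.Agent.X212.Dsc37.Main
import Crest.Agent.X212.Srf12.Sph
import Crest.Agent.X212.Lev33.Main
import Crest.Agent.X212.Prd34.Main
import Crest.Agent.X212.Glb47.Main
import Crest.Agent.X212.Srf12.AnnR
import Crest.Agent.X212.Tor42.Main
import Crest.Agent.X212.Deh83.Main
import Crest.Agent.X212.Anb49.Main

/-!
# Row 212, layer T (helper1): the loop theorem, and PL handle straightening from the open leaves
-/

set_option autoImplicit false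

namespace Crest.Agent.X212.Thk1

open Crest.Agent.X212.Prd34 Crest.Agent.X212.Lev33

/-- **the loop theorem**, cocycle form -/
theorem ltc : Tw9.LTc := Geo46.ltc discStmt Dsc37.desc

/-- **the loop theorem** -/
theorem lt : LTStmt := Geo46.lt discStmt Dsc37.desc

theorem inc : IncStmt := incStmt lt Srf12.sphStmt

/-- **Dehn's lemma** -/
theorem dehn : DehnStmt := Deh83.dehn ltc Anb49.anbStmt

/-- PL handle straightening from the two remaining leaves -/
theorem plhs_of (ns : Tor42.Nonsep) (bs : Tor42.Bdsum) (K : Finset (Fin 3)) : PLHS K :=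
  plhs flatStmt dehn thickStmt (rung1Stmt lt Srf12.sphStmt Srf12.annRec)
    (Tor42.rung0 Lvf3.lev inc Srf12.annRec ns bs) (annStmt lt Srf12.sphStmt Srf12.annRec) K

theorem goal_of (ns : Tor42.Nonsep) (bs : Tor42.Bdsum) (C : Skel83.Core) : Skel83.Goal :=
  Glb47.goal (plhs_of ns bs) C

end Crest.Agent.X212.Thk1
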